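import Mathlib

/-!
# Regular radial initial value problem at `r = 0`

Variable `z = r²`. For a right-hand side `H : ℝ → E → E → E` (arguments `z`, `U`, `z V = r u'`)
we look for `V : ℝ → E` with
`V z = ∫₀¹ t^e • H (z t²) (U (z t²)) ((z t²) • V (z t²)) dt`, `U z = u₀ + ½ ∫₀ᶻ V`.
With `e = d - 1` this is `Δ u = H(r², u, r u')` for `u(r) = U(r²)`, `u' (r) = r V(r²)`.
-/

open Set MeasureTheory Filter Topology
open scoped NNReal BoundedContinuousFunction

namespace Vale.Agent.P139.H499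

variable {E : Type*} [NormedAddCommGroup E] [NormedSpace ℝ E]

/-- The averaging operator `(avg e g) z = ∫₀¹ t^e g(z t²) dt`. -/
noncomputable def avg (e : ℕ) (g : ℝ → E) (z : ℝ) : E :=
  ∫ t in (0 : ℝ)..1, t ^ e • g (z * t ^ 2)

/-- The function `U` determined by `V`. -/
noncomputable def prim (u₀ : E) (V : ℝ → E) (z : ℝ) : E :=
  u₀ + (1 / 2 : ℝ) • ∫ s in (0 : ℝ)..z, V s

/-- The right-hand side along `V`. -/
noncomputable def rhs (H : ℝ → E → E → E) (u₀ : E) (V : ℝ → E) (z : ℝ) : E :=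
  H z (prim u₀ V z) (z • V z)

/-- `V` is a regular solution on the set `S` (an interval around or starting at `0`). -/
def IsReg (e : ℕ) (H : ℝ → E → E → E) (u₀ : E) (V : ℝ → E) (S : Set ℝ) : Prop :=
  ∀ z ∈ S, V z = avg e (rhs H u₀ V) z

theorem avg_continuous [CompleteSpace E] (e : ℕ) {g : ℝ → E} (hg : Continuous g) :
    Continuous (avg e g) := by
  unfold avg
  apply intervalIntegral.continuous_parametric_intervalIntegral_of_continuous'
  fun_prop

theorem prim_continuous [CompleteSpace E] (u₀ : E) {V : ℝ → E} (hV : Continuous V) :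
    Continuous (prim u₀ V) := by
  unfold prim
  apply Continuous.add continuous_const
  apply Continuous.const_smul
  exact intervalIntegral.continuous_primitive (fun a b => hV.intervalIntegrable a b) 0

theorem rhs_continuous [CompleteSpace E] {H : ℝ → E → E → E}
    (hH : Continuous fun q : ℝ × E × E => H q.1 q.2.1 q.2.2) (u₀ : E) {V : ℝ → E}
    (hV : Continuous V) : Continuous (rhs H u₀ V) := by
  have h1 := prim_continuous u₀ hV
  have : Continuous fun z : ℝ => (z, prim u₀ V z, z • V z) := by fun_prop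
  exact hH.comp this

theorem mul_mem_uIcc_zero {z t : ℝ} (h0 : 0 ≤ t) (h1 : t ≤ 1) : z * t ∈ uIcc 0 z := by
  rw [mem_uIcc]
  rcases le_total 0 z with hz | hz
  · left; constructor
    · positivity
    · nlinarith
  · right; constructor
    · nlinarith
    · nlinarith

theorem abs_le_of_mem_uIcc_zero {z s : ℝ} (h : s ∈ uIcc 0 z) : |s| ≤ |z| := by
  rw [mem_uIcc] at h
  rcases h with h | h
  · rw [abs_of_nonneg h.1, abs_of_nonneg (h.1.trans h.2)]; exact h.2
  · rw [abs_of_nonpos h.2, abs_of_nonpos (h.1.trans h.2)]; linarith [h.1]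

theorem mem_uIcc_zero_trans {z s t : ℝ} (hs : s ∈ uIcc 0 z) (ht : t ∈ uIcc 0 s) :
    t ∈ uIcc 0 z := by
  rw [mem_uIcc] at *
  rcases hs with hs | hs <;> rcases ht with ht | ht
  · left; exact ⟨ht.1, ht.2.trans hs.2⟩
  · left; constructor <;> linarith [ht.1, ht.2, hs.1, hs.2]
  · right; constructor <;> linarith [ht.1, ht.2, hs.1, hs.2]
  · right; exact ⟨hs.1.trans ht.1, ht.2⟩

theorem norm_avg_le (e : ℕ) {g : ℝ → E} {z C κ : ℝ} (hκ : 0 < κ) (hC : 0 ≤ C)
    (h : ∀ s ∈ uIcc 0 z, ‖g s‖ ≤ C * Real.exp (κ * |s|)) :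
    ‖avg e g z‖ ≤ C * Real.exp (κ * |z|) := by
  unfold avg
  have h1 : ∀ t ∈ uIoc (0 : ℝ) 1, ‖t ^ e • g (z * t ^ 2)‖ ≤ C * Real.exp (κ * |z|) := by
    intro t ht
    rw [uIoc_of_le zero_le_one] at ht
    rw [norm_smul, norm_pow, Real.norm_eq_abs, abs_of_pos ht.1]
    have h2 : |z * t ^ 2| ≤ |z| := by
      rw [abs_mul, abs_of_nonneg (by positivity : (0 : ℝ) ≤ t ^ 2)]
      have : t ^ 2 ≤ 1 := pow_le_one₀ ht.1.le ht.2
      nlinarith [abs_nonneg z]
    have h3 := h _ (mul_mem_uIcc_zero (z := z) (by positivity : (0 : ℝ) ≤ t ^ 2)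
      (pow_le_one₀ ht.1.le ht.2))
    have h4 : t ^ e ≤ 1 := pow_le_one₀ ht.1.le ht.2
    have h5 : Real.exp (κ * |z * t ^ 2|) ≤ Real.exp (κ * |z|) := by
      apply Real.exp_le_exp.mpr; nlinarith
    calc t ^ e * ‖g (z * t ^ 2)‖ ≤ 1 * (C * Real.exp (κ * |z * t ^ 2|)) := by
          apply mul_le_mul h4 h3 (norm_nonneg _) zero_le_one
      _ ≤ C * Real.exp (κ * |z|) := by
          rw [one_mul]; exact mul_le_mul_of_nonneg_left h5 hC
  have := intervalIntegral.norm_integral_le_of_norm_le_const h1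
  simpa using this


theorem integral_mul_exp (κ a : ℝ) (hκ : 0 < κ) :
    ∫ t in (0 : ℝ)..1, a * t * Real.exp (κ * a * t ^ 2) = (Real.exp (κ * a) - 1) / (2 * κ) := by
  have h : ∀ t ∈ uIcc (0 : ℝ) 1,
      HasDerivAt (fun t : ℝ => Real.exp (κ * a * t ^ 2) / (2 * κ))
        (a * t * Real.exp (κ * a * t ^ 2)) t := by
    intro t _
    have h1 : HasDerivAt (fun t : ℝ => κ * a * t ^ 2) (κ * a * (2 * t)) t := by
      simpa using (hasDerivAt_pow 2 t).const_mul (κ * a)
    have h2 := (h1.exp).div_const (2 * κ)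
    refine h2.congr_deriv ?_
    field_simp
  rw [intervalIntegral.integral_eq_sub_of_hasDerivAt h]
  · simp; ring
  · apply Continuous.intervalIntegrable; fun_prop

theorem norm_avg_le' (e : ℕ) {g : ℝ → E} {z C κ : ℝ} (hκ : 0 < κ) (hC : 0 ≤ C)
    (h : ∀ s ∈ uIcc 0 z, ‖g s‖ ≤ C * (|s| * Real.exp (κ * |s|))) :
    ‖avg e g z‖ ≤ C / (2 * κ) * Real.exp (κ * |z|) := by
  unfold avg
  have h1 : ∀ t ∈ uIoc (0 : ℝ) 1, ‖t ^ e • g (z * t ^ 2)‖ ≤
      C * (|z| * t * Real.exp (κ * |z| * t ^ 2)) := by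
    intro t ht
    rw [uIoc_of_le zero_le_one] at ht
    rw [norm_smul, norm_pow, Real.norm_eq_abs, abs_of_pos ht.1]
    have h0 : |z * t ^ 2| = |z| * t ^ 2 := by
      rw [abs_mul, abs_of_nonneg (by positivity : (0 : ℝ) ≤ t ^ 2)]
    have h3 := h _ (mul_mem_uIcc_zero (z := z) (by positivity : (0 : ℝ) ≤ t ^ 2)
      (pow_le_one₀ ht.1.le ht.2))
    rw [h0] at h3
    have h4 : t ^ e * t ^ 2 ≤ t := by
      calc t ^ e * t ^ 2 ≤ 1 * t ^ 2 :=
            mul_le_mul_of_nonneg_right (pow_le_one₀ ht.1.le ht.2) (by positivity)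
        _ = t * t := by ring
        _ ≤ t * 1 := by exact mul_le_mul_of_nonneg_left ht.2 ht.1.le
        _ = t := mul_one t
    calc t ^ e * ‖g (z * t ^ 2)‖
        ≤ t ^ e * (C * (|z| * t ^ 2 * Real.exp (κ * (|z| * t ^ 2)))) :=
          mul_le_mul_of_nonneg_left h3 (by have := ht.1.le; positivity)
      _ = (t ^ e * t ^ 2) * (C * (|z| * Real.exp (κ * (|z| * t ^ 2)))) := by ring
      _ ≤ t * (C * (|z| * Real.exp (κ * (|z| * t ^ 2)))) :=
          mul_le_mul_of_nonneg_right h4 (by positivity)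
      _ = C * (|z| * t * Real.exp (κ * |z| * t ^ 2)) := by
          rw [show κ * (|z| * t ^ 2) = κ * |z| * t ^ 2 by ring]; ring
  have hint : IntervalIntegrable (fun t : ℝ => C * (|z| * t * Real.exp (κ * |z| * t ^ 2)))
      volume 0 1 := by
    apply Continuous.intervalIntegrable; fun_prop
  have h5 := intervalIntegral.norm_integral_le_abs_of_norm_le
    (μ := volume) (a := (0 : ℝ)) (b := 1) (f := fun t => t ^ e • g (z * t ^ 2))
    (g := fun t : ℝ => C * (|z| * t * Real.exp (κ * |z| * t ^ 2)))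
    (Filter.eventually_of_mem (self_mem_ae_restrict measurableSet_uIoc) h1) hint
  refine h5.trans ?_
  rw [intervalIntegral.integral_const_mul, integral_mul_exp κ |z| hκ]
  have h6 : 1 ≤ Real.exp (κ * |z|) := Real.one_le_exp (by positivity)
  rw [abs_of_nonneg]
  · rw [div_mul_eq_mul_div, mul_div_assoc']
    apply div_le_div_of_nonneg_right _ (by positivity)
    apply mul_le_mul_of_nonneg_left _ hC
    linarith
  · apply mul_nonneg hC
    apply div_nonneg <;> linarith

theorem norm_prim_sub_le (u₀ : E) {V V' : ℝ → E} (hV : Continuous V) (hV' : Continuous V')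
    {z C κ : ℝ} (hκ : 0 < κ) (hC : 0 ≤ C)
    (h : ∀ s ∈ uIcc 0 z, ‖V s - V' s‖ ≤ C * Real.exp (κ * |s|)) :
    ‖prim u₀ V z - prim u₀ V' z‖ ≤ C / (2 * κ) * Real.exp (κ * |z|) := by
  have h0 : prim u₀ V z - prim u₀ V' z = (1 / 2 : ℝ) • ∫ s in (0 : ℝ)..z, (V s - V' s) := by
    unfold prim
    rw [intervalIntegral.integral_sub (hV.intervalIntegrable _ _) (hV'.intervalIntegrable _ _)]
    rw [smul_sub]; abel
  have key : ‖∫ s in (0 : ℝ)..z, (V s - V' s)‖ ≤ C / κ * Real.exp (κ * |z|) := by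
    -- substitution `s = z τ`
    have hsub : ∫ s in (0 : ℝ)..z, (V s - V' s) = z • ∫ τ in (0 : ℝ)..1, (V (z * τ) - V' (z * τ)) := by
      rcases eq_or_ne z 0 with rfl | hz
      · simp
      · have := intervalIntegral.smul_integral_comp_mul_left
          (f := fun s => V s - V' s) (a := 0) (b := 1) z
        simp only [mul_zero, mul_one] at this
        exact this.symm
    rw [hsub, norm_smul]
    have h1 : ∀ τ ∈ uIoc (0 : ℝ) 1, ‖V (z * τ) - V' (z * τ)‖ ≤
        C * Real.exp (κ * |z| * τ) := by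
      intro τ ht
      rw [uIoc_of_le zero_le_one] at ht
      have h0 : |z * τ| = |z| * τ := by rw [abs_mul, abs_of_pos ht.1]
      have h3 := h _ (mul_mem_uIcc_zero (z := z) ht.1.le ht.2)
      rw [h0] at h3
      rw [mul_assoc]
      exact h3
    have hint : IntervalIntegrable (fun τ : ℝ => C * Real.exp (κ * |z| * τ)) volume 0 1 := by
      apply Continuous.intervalIntegrable; fun_prop
    have h5 := intervalIntegral.norm_integral_le_abs_of_norm_le
      (μ := volume) (a := (0 : ℝ)) (b := 1) (f := fun τ => V (z * τ) - V' (z * τ))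
      (g := fun τ : ℝ => C * Real.exp (κ * |z| * τ))
      (Filter.eventually_of_mem (self_mem_ae_restrict measurableSet_uIoc) h1) hint
    rcases eq_or_ne z 0 with rfl | hz
    · simp; positivity
    have hz' : 0 < |z| := abs_pos.mpr hz
    have hI : ∫ τ in (0 : ℝ)..1, Real.exp (κ * |z| * τ) = (Real.exp (κ * |z|) - 1) / (κ * |z|) := by
      have h : ∀ t ∈ uIcc (0 : ℝ) 1,
          HasDerivAt (fun t : ℝ => Real.exp (κ * |z| * t) / (κ * |z|))
            (Real.exp (κ * |z| * t)) t := by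
        intro t _
        have h1 : HasDerivAt (fun t : ℝ => κ * |z| * t) (κ * |z|) t := by
          simpa using (hasDerivAt_id t).const_mul (κ * |z|)
        have h2 := (h1.exp).div_const (κ * |z|)
        refine h2.congr_deriv ?_
        field_simp
      rw [intervalIntegral.integral_eq_sub_of_hasDerivAt h]
      · simp; ring
      · apply Continuous.intervalIntegrable; fun_prop
    rw [intervalIntegral.integral_const_mul, hI] at h5
    have h6 : 1 ≤ Real.exp (κ * |z|) := Real.one_le_exp (by positivity)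
    rw [abs_of_nonneg (by
      apply mul_nonneg hC; apply div_nonneg; linarith; positivity)] at h5
    rw [Real.norm_eq_abs]
    calc |z| * ‖∫ τ in (0 : ℝ)..1, (V (z * τ) - V' (z * τ))‖
        ≤ |z| * (C * ((Real.exp (κ * |z|) - 1) / (κ * |z|))) :=
          mul_le_mul_of_nonneg_left h5 hz'.le
      _ = C / κ * (Real.exp (κ * |z|) - 1) := by field_simp
      _ ≤ C / κ * Real.exp (κ * |z|) := by
          apply mul_le_mul_of_nonneg_left _ (by positivity); linarith
  rw [h0, norm_smul]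
  rw [Real.norm_of_nonneg (by norm_num : (0 : ℝ) ≤ 1 / 2)]
  calc (1 / 2 : ℝ) * ‖∫ s in (0 : ℝ)..z, (V s - V' s)‖
      ≤ (1 / 2) * (C / κ * Real.exp (κ * |z|)) := by
        apply mul_le_mul_of_nonneg_left key (by norm_num)
    _ = C / (2 * κ) * Real.exp (κ * |z|) := by ring

/-- The main estimate: the Picard map contracts by the factor `L/κ` in the weighted norm. -/
theorem norm_map_sub_le [CompleteSpace E] (e : ℕ) {H : ℝ → E → E → E}
    (hH : Continuous fun q : ℝ × E × E => H q.1 q.2.1 q.2.2) {L : ℝ} (hL : 0 ≤ L)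
    (u₀ : E) {V V' : ℝ → E} (hV : Continuous V) (hV' : Continuous V')
    {z C κ : ℝ} (hκ : 0 < κ) (hC : 0 ≤ C)
    (hLip : ∀ s ∈ uIcc 0 z, ∀ u p u' p', ‖H s u p - H s u' p'‖ ≤ L * (‖u - u'‖ + ‖p - p'‖))
    (h : ∀ s ∈ uIcc 0 z, ‖V s - V' s‖ ≤ C * Real.exp (κ * |s|)) :
    ‖avg e (rhs H u₀ V) z - avg e (rhs H u₀ V') z‖ ≤ (L / κ) * C * Real.exp (κ * |z|) := by
  have c1 := rhs_continuous hH u₀ hV
  have c2 := rhs_continuous hH u₀ hV'
  have c3 := prim_continuous u₀ hV
  have c4 := prim_continuous u₀ hV'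
  -- split the difference of the right-hand sides in two parts
  have hU : ∀ s ∈ uIcc 0 z,
      ‖prim u₀ V s - prim u₀ V' s‖ ≤ C / (2 * κ) * Real.exp (κ * |s|) := by
    intro s hs
    exact norm_prim_sub_le u₀ hV hV' hκ hC (fun t ht => h t (mem_uIcc_zero_trans hs ht))
  have e1 : avg e (rhs H u₀ V) z - avg e (rhs H u₀ V') z
      = avg e (fun s => rhs H u₀ V s - H s (prim u₀ V' s) (s • V s)) z
        + avg e (fun s => H s (prim u₀ V' s) (s • V s) - rhs H u₀ V' s) z := by
    have cm : Continuous fun s : ℝ => H s (prim u₀ V' s) (s • V s) := by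
      have : Continuous fun z : ℝ => (z, prim u₀ V' z, z • V z) := by fun_prop
      exact hH.comp this
    unfold avg
    rw [← intervalIntegral.integral_sub, ← intervalIntegral.integral_add]
    · congr 1; ext t
      simp only []
      rw [← smul_sub, ← smul_add, sub_add_sub_cancel]
    all_goals apply Continuous.intervalIntegrable; fun_prop
  rw [e1]
  have b1 : ‖avg e (fun s => rhs H u₀ V s - H s (prim u₀ V' s) (s • V s)) z‖
      ≤ (L * (C / (2 * κ))) * Real.exp (κ * |z|) := by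
    apply norm_avg_le e hκ (by positivity)
    intro s hs
    have := hLip s hs (prim u₀ V s) (s • V s) (prim u₀ V' s) (s • V s)
    simp only [sub_self, norm_zero, add_zero] at this
    refine this.trans ?_
    calc L * ‖prim u₀ V s - prim u₀ V' s‖ ≤ L * (C / (2 * κ) * Real.exp (κ * |s|)) :=
          mul_le_mul_of_nonneg_left (hU s hs) hL
      _ = _ := by ring
  have b2 : ‖avg e (fun s => H s (prim u₀ V' s) (s • V s) - rhs H u₀ V' s) z‖
      ≤ (L * C) / (2 * κ) * Real.exp (κ * |z|) := by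
    apply norm_avg_le' e hκ (by positivity)
    intro s hs
    have := hLip s hs (prim u₀ V' s) (s • V s) (prim u₀ V' s) (s • V' s)
    simp only [sub_self, norm_zero, zero_add] at this
    refine this.trans ?_
    rw [← smul_sub, norm_smul, Real.norm_eq_abs]
    calc L * (|s| * ‖V s - V' s‖) ≤ L * (|s| * (C * Real.exp (κ * |s|))) := by
          apply mul_le_mul_of_nonneg_left _ hL
          exact mul_le_mul_of_nonneg_left (h s hs) (abs_nonneg _)
      _ = _ := by ring
  calc _ ≤ _ := norm_add_le _ _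
    _ ≤ (L * (C / (2 * κ))) * Real.exp (κ * |z|) + (L * C) / (2 * κ) * Real.exp (κ * |z|) :=
        add_le_add b1 b2
    _ = (L / κ) * C * Real.exp (κ * |z|) := by field_simp; ring

/-- The Picard map in the weighted space. -/
noncomputable def picard (e : ℕ) (H : ℝ → E → E → E) (u₀ : E) (κ : ℝ) (W : ℝ → E) (z : ℝ) : E :=
  Real.exp (-(κ * |z|)) • avg e (rhs H u₀ (fun s => Real.exp (κ * |s|) • W s)) z

theorem norm_avg_zero_le [CompleteSpace E] (e : ℕ) {H : ℝ → E → E → E} {L B : ℝ} (hL : 0 ≤ L)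
    (u₀ : E) {z κ : ℝ} (hκ : 0 < κ)
    (hLip : ∀ s u p u' p', ‖H s u p - H s u' p'‖ ≤ L * (‖u - u'‖ + ‖p - p'‖))
    (hB : ∀ s, ‖H s 0 0‖ ≤ B) :
    ‖avg e (rhs H u₀ (fun _ => (0 : E))) z‖ ≤ (B + L * ‖u₀‖) * Real.exp (κ * |z|) := by
  have hB0 : 0 ≤ B := (norm_nonneg _).trans (hB 0)
  apply norm_avg_le e hκ (by positivity)
  intro s _
  have h1 : rhs H u₀ (fun _ => (0 : E)) s = H s u₀ 0 := by
    simp [rhs, prim]
  rw [h1]
  have h2 := hLip s u₀ 0 0 0
  simp only [sub_zero, norm_zero, add_zero] at h2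
  have h3 : ‖H s u₀ 0‖ ≤ B + L * ‖u₀‖ := by
    calc ‖H s u₀ 0‖ = ‖(H s u₀ 0 - H s 0 0) + H s 0 0‖ := by rw [sub_add_cancel]
      _ ≤ ‖H s u₀ 0 - H s 0 0‖ + ‖H s 0 0‖ := norm_add_le _ _
      _ ≤ L * ‖u₀‖ + B := add_le_add h2 (hB s)
      _ = _ := by ring
  have h4 : 1 ≤ Real.exp (κ * |s|) := Real.one_le_exp (by positivity)
  have h5 : 0 ≤ B + L * ‖u₀‖ := by positivity
  nlinarith

/-- Existence of a global regular solution, for globally Lipschitz `H`. -/
theorem exists_isReg [CompleteSpace E] (e : ℕ) {H : ℝ → E → E → E}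
    (hH : Continuous fun q : ℝ × E × E => H q.1 q.2.1 q.2.2) {L B : ℝ} (hL : 0 ≤ L)
    (hLip : ∀ s u p u' p', ‖H s u p - H s u' p'‖ ≤ L * (‖u - u'‖ + ‖p - p'‖))
    (hB : ∀ s, ‖H s 0 0‖ ≤ B) (u₀ : E) :
    ∃ V : ℝ → E, Continuous V ∧ IsReg e H u₀ V univ ∧
      ∀ z, ‖V z‖ ≤ 2 * (B + L * ‖u₀‖) * Real.exp ((2 * L + 1) * |z|) := by
  have hB0 : 0 ≤ B := (norm_nonneg _).trans (hB 0)
  set κ : ℝ := 2 * L + 1 with hκdef
  have hκ : 0 < κ := by positivity
  have hhalf : L / κ ≤ 1 / 2 := by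
    rw [div_le_iff₀ hκ, hκdef]; linarith
  have cexp : Continuous fun s : ℝ => Real.exp (κ * |s|) := by fun_prop
  have cexp' : Continuous fun s : ℝ => Real.exp (-(κ * |s|)) := by fun_prop
  have cont : ∀ W : ℝ →ᵇ E, Continuous (picard e H u₀ κ W) := by
    intro W
    have h1 : Continuous fun s : ℝ => Real.exp (κ * |s|) • W s := cexp.smul W.continuous
    have h2 := avg_continuous e (rhs_continuous hH u₀ h1)
    exact cexp'.smul h2
  have diff : ∀ (W W' : ℝ →ᵇ E) (z : ℝ),
      ‖picard e H u₀ κ W z - picard e H u₀ κ W' z‖ ≤ 1 / 2 * dist W W' := by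
    intro W W' z
    have h1 : Continuous fun s : ℝ => Real.exp (κ * |s|) • W s := cexp.smul W.continuous
    have h2 : Continuous fun s : ℝ => Real.exp (κ * |s|) • W' s := cexp.smul W'.continuous
    have h3 := norm_map_sub_le e hH hL u₀ h1 h2 (z := z) hκ (dist_nonneg (x := W) (y := W'))
      (fun s _ u p u' p' => hLip s u p u' p') (fun s _ => by
        rw [← smul_sub, norm_smul, Real.norm_of_nonneg (Real.exp_pos _).le, mul_comm]
        apply mul_le_mul_of_nonneg_right _ (Real.exp_pos _).le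
        rw [← dist_eq_norm]; exact BoundedContinuousFunction.dist_coe_le_dist s)
    unfold picard
    rw [← smul_sub, norm_smul, Real.norm_of_nonneg (Real.exp_pos _).le]
    calc _ ≤ Real.exp (-(κ * |z|)) * (L / κ * dist W W' * Real.exp (κ * |z|)) :=
          mul_le_mul_of_nonneg_left h3 (Real.exp_pos _).le
      _ = (L / κ) * dist W W' * (Real.exp (-(κ * |z|)) * Real.exp (κ * |z|)) := by ring
      _ = (L / κ) * dist W W' := by rw [← Real.exp_add]; simp
      _ ≤ _ := mul_le_mul_of_nonneg_right hhalf dist_nonneg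
  have zero : ∀ z, ‖picard e H u₀ κ (0 : ℝ →ᵇ E) z‖ ≤ B + L * ‖u₀‖ := by
    intro z
    have h1 := norm_avg_zero_le e hL u₀ (z := z) hκ hLip hB
    unfold picard
    have h2 : (fun s : ℝ => Real.exp (κ * |s|) • (0 : ℝ →ᵇ E) s) = fun _ => (0 : E) := by
      ext s; simp
    rw [h2, norm_smul, Real.norm_of_nonneg (Real.exp_pos _).le]
    calc _ ≤ Real.exp (-(κ * |z|)) * ((B + L * ‖u₀‖) * Real.exp (κ * |z|)) :=
          mul_le_mul_of_nonneg_left h1 (Real.exp_pos _).le
      _ = (B + L * ‖u₀‖) * (Real.exp (-(κ * |z|)) * Real.exp (κ * |z|)) := by ring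
      _ = _ := by rw [← Real.exp_add]; simp
  have bdd : ∀ (W : ℝ →ᵇ E) (z : ℝ),
      ‖picard e H u₀ κ W z‖ ≤ B + L * ‖u₀‖ + 1 / 2 * ‖W‖ := by
    intro W z
    have h1 := diff W 0 z
    rw [dist_zero_right] at h1
    calc ‖picard e H u₀ κ W z‖
        = ‖(picard e H u₀ κ W z - picard e H u₀ κ (0 : ℝ →ᵇ E) z)
            + picard e H u₀ κ (0 : ℝ →ᵇ E) z‖ := by rw [sub_add_cancel]
      _ ≤ _ := norm_add_le _ _
      _ ≤ 1 / 2 * ‖W‖ + (B + L * ‖u₀‖) := add_le_add h1 (zero z)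
      _ = _ := by ring
  let T : (ℝ →ᵇ E) → (ℝ →ᵇ E) := fun W =>
    BoundedContinuousFunction.ofNormedAddCommGroup (picard e H u₀ κ W) (cont W) _ (bdd W)
  have hT : ContractingWith (1 / 2 : ℝ≥0) T := by
    constructor
    · rw [div_lt_one (by norm_num)]; norm_num
    · apply LipschitzWith.of_dist_le_mul
      intro W W'
      rw [BoundedContinuousFunction.dist_le (by positivity)]
      intro z
      rw [dist_eq_norm]
      have := diff W W' z
      simpa [T] using this
  let W := ContractingWith.fixedPoint T hT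
  have hW : T W = W := hT.fixedPoint_isFixedPt
  have hWz : ∀ z, picard e H u₀ κ W z = W z := by
    intro z
    have := congrArg (fun F : ℝ →ᵇ E => F z) hW
    simpa [T] using this
  refine ⟨fun s => Real.exp (κ * |s|) • W s, cexp.smul W.continuous, ?_, ?_⟩
  · intro z _
    have h1 := hWz z
    unfold picard at h1
    show Real.exp (κ * |z|) • W z = _
    rw [← h1, smul_smul, ← Real.exp_add]
    simp
  · intro z
    have hWn : ‖W‖ ≤ 2 * (B + L * ‖u₀‖) := by
      have h1 : ‖W‖ ≤ B + L * ‖u₀‖ + 1 / 2 * ‖W‖ := by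
        rw [BoundedContinuousFunction.norm_le (by positivity)]
        intro z
        rw [← hWz z]; exact bdd W z
      linarith
    rw [norm_smul, Real.norm_of_nonneg (Real.exp_pos _).le, mul_comm]
    apply mul_le_mul_of_nonneg_right _ (Real.exp_pos _).le
    exact (W.norm_coe_le_norm z).trans hWn

/-- Uniqueness of regular solutions between `0` and `Z` (one-sided or two-sided). -/
theorem IsReg.unique [CompleteSpace E] {e : ℕ} {H : ℝ → E → E → E}
    (hH : Continuous fun q : ℝ × E × E => H q.1 q.2.1 q.2.2) {L : ℝ} (hL : 0 ≤ L) {Z : ℝ}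
    (hLip : ∀ s ∈ uIcc 0 Z, ∀ u p u' p', ‖H s u p - H s u' p'‖ ≤ L * (‖u - u'‖ + ‖p - p'‖))
    {u₀ : E} {V V' : ℝ → E} (hV : Continuous V) (hV' : Continuous V')
    (h1 : IsReg e H u₀ V (uIcc 0 Z)) (h2 : IsReg e H u₀ V' (uIcc 0 Z)) :
    ∀ z ∈ uIcc 0 Z, V z = V' z := by
  set κ : ℝ := 2 * L + 1 with hκdef
  have hκ : 0 < κ := by positivity
  have hhalf : L / κ ≤ 1 / 2 := by
    rw [div_le_iff₀ hκ, hκdef]; linarith
  have cf : Continuous fun z : ℝ => Real.exp (-(κ * |z|)) * ‖V z - V' z‖ := by fun_prop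
  obtain ⟨z₀, hz₀, hmax⟩ := (isCompact_uIcc (a := (0 : ℝ)) (b := Z)).exists_isMaxOn
    ⟨0, left_mem_uIcc⟩ cf.continuousOn
  set C := Real.exp (-(κ * |z₀|)) * ‖V z₀ - V' z₀‖ with hC
  have hC0 : 0 ≤ C := by positivity
  have hb : ∀ s ∈ uIcc 0 Z, ‖V s - V' s‖ ≤ C * Real.exp (κ * |s|) := by
    intro s hs
    have := hmax hs
    simp only [Set.mem_ofPred_eq] at this
    calc ‖V s - V' s‖ = (Real.exp (-(κ * |s|)) * ‖V s - V' s‖) * Real.exp (κ * |s|) := by
          rw [mul_comm (Real.exp (-(κ * |s|))), mul_assoc, ← Real.exp_add]; simp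
      _ ≤ _ := mul_le_mul_of_nonneg_right this (Real.exp_pos _).le
  have h3 := norm_map_sub_le e hH hL u₀ hV hV' (z := z₀) hκ hC0
    (fun s hs => hLip s (mem_uIcc_zero_trans hz₀ hs)) (fun s hs => hb s (mem_uIcc_zero_trans hz₀ hs))
  rw [← h1 z₀ hz₀, ← h2 z₀ hz₀] at h3
  have h4 : C ≤ 1 / 2 * C := by
    calc C ≤ Real.exp (-(κ * |z₀|)) * (L / κ * C * Real.exp (κ * |z₀|)) := by
          rw [hC]; exact mul_le_mul_of_nonneg_left h3 (Real.exp_pos _).le
      _ = L / κ * C * (Real.exp (-(κ * |z₀|)) * Real.exp (κ * |z₀|)) := by ring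
      _ = L / κ * C := by rw [← Real.exp_add]; simp
      _ ≤ _ := mul_le_mul_of_nonneg_right hhalf hC0
  have h5 : C = 0 := by linarith
  intro z hz
  have := hb z hz
  rw [h5, zero_mul] at this
  exact sub_eq_zero.mp (norm_le_zero_iff.mp this)

end Vale.Agent.P139.H499
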