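import Mathlib
import Vale.Agent.P139.H499.RI1

/-!
# Regularity of regular solutions, and the classical radial equation
-/

open Set MeasureTheory Filter Topology
open scoped NNReal BoundedContinuousFunction ContDiff

namespace Vale.Agent.P139.H499

variable {E : Type*} [NormedAddCommGroup E] [NormedSpace ℝ E]

theorem avg_neg (e : ℕ) (g : ℝ → E) (z : ℝ) : avg e (fun s => g (-s)) (-z) = avg e g z := by
  unfold avg; congr 1; ext t; congr 2; ring_nf

theorem avg_zero (e : ℕ) (g : ℝ → E) [CompleteSpace E] :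
    avg e g 0 = (1 / ((e : ℝ) + 1)) • g 0 := by
  unfold avg
  simp only [zero_mul]
  rw [intervalIntegral.integral_smul_const, integral_pow]
  simp

/-- `r^(e+1) avg e g (r²) = ∫₀ʳ s^e g(s²) ds`. -/
theorem avg_sq (e : ℕ) (g : ℝ → E) (r : ℝ) :
    r ^ (e + 1) • avg e g (r ^ 2) = ∫ s in (0 : ℝ)..r, s ^ e • g (s ^ 2) := by
  have h := intervalIntegral.smul_integral_comp_mul_left
      (f := fun s : ℝ => s ^ e • g (s ^ 2)) (a := 0) (b := 1) r
  simp only [mul_zero, mul_one] at h
  rw [← h, pow_succ', ← smul_smul]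
  congr 1
  unfold avg
  rw [← intervalIntegral.integral_smul]
  congr 1; ext t
  rw [smul_smul, mul_pow, mul_pow]

theorem hasDerivAt_avg_pos [CompleteSpace E] (e : ℕ) {g : ℝ → E} (hg : Continuous g) {z : ℝ}
    (hz : 0 < z) :
    HasDerivAt (avg e g) ((1 / (2 * z)) • (g z - ((e : ℝ) + 1) • avg e g z)) z := by
  have hF : ∀ r : ℝ, HasDerivAt (fun r => ∫ s in (0 : ℝ)..r, s ^ e • g (s ^ 2))
      (r ^ e • g (r ^ 2)) r := by
    intro r
    have hc : Continuous fun s : ℝ => s ^ e • g (s ^ 2) := by fun_prop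
    exact intervalIntegral.integral_hasDerivAt_right (hc.intervalIntegrable _ _)
      (hc.stronglyMeasurableAtFilter _ _) hc.continuousAt
  have hs : 0 < Real.sqrt z := Real.sqrt_pos.mpr hz
  have hsq : Real.sqrt z ^ 2 = z := Real.sq_sqrt hz.le
  have h1 : HasDerivAt Real.sqrt (1 / (2 * Real.sqrt z)) z := Real.hasDerivAt_sqrt hz.ne'
  have h2 := (hF (Real.sqrt z)).scomp z h1
  have h3 : HasDerivAt (fun z => (Real.sqrt z) ^ (e + 1))
      ((↑(e + 1) : ℝ) * Real.sqrt z ^ e * (1 / (2 * Real.sqrt z))) z := by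
    have := HasDerivAt.fun_pow h1 (e + 1)
    simpa using this
  have h4 : HasDerivAt (fun z => ((Real.sqrt z) ^ (e + 1))⁻¹)
      (-((↑(e + 1) : ℝ) * Real.sqrt z ^ e * (1 / (2 * Real.sqrt z))) / ((Real.sqrt z) ^ (e + 1)) ^ 2)
      z := h3.inv (by positivity)
  have h5 := h4.smul h2
  have h6 : (fun z => ((Real.sqrt z) ^ (e + 1))⁻¹ •
      ((fun r => ∫ s in (0 : ℝ)..r, s ^ e • g (s ^ 2)) ∘ Real.sqrt) z) =ᶠ[𝓝 z] avg e g := by
    filter_upwards [lt_mem_nhds hz] with x hx
    have hx' : 0 < Real.sqrt x := Real.sqrt_pos.mpr hx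
    simp only [Function.comp_apply]
    rw [← avg_sq, smul_smul, inv_mul_cancel₀ (by positivity), one_smul, Real.sq_sqrt hx.le]
  have h7 := h5.congr_of_eventuallyEq h6.symm
  refine h7.congr_deriv ?_
  simp only [Function.comp_apply]
  rw [← avg_sq, hsq]
  rw [smul_sub, smul_smul, smul_smul, smul_smul, smul_smul]
  set q := Real.sqrt z with hq
  rw [sub_eq_add_neg, ← neg_smul]
  congr 1
  · congr 1
    rw [← hsq]
    field_simp
    ring
  · congr 1
    rw [← hsq]
    push_cast
    field_simp
    ring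

theorem hasDerivAt_avg [CompleteSpace E] (e : ℕ) {g : ℝ → E} (hg : Continuous g) {z : ℝ}
    (hz : z ≠ 0) :
    HasDerivAt (avg e g) ((1 / (2 * z)) • (g z - ((e : ℝ) + 1) • avg e g z)) z := by
  rcases lt_or_gt_of_ne hz with h | h
  · have hg' : Continuous fun s => g (-s) := by fun_prop
    have h1 := hasDerivAt_avg_pos e hg' (z := -z) (by linarith)
    have h2 : HasDerivAt (fun s : ℝ => -s) (-1 : ℝ) z := hasDerivAt_neg z
    have h3 := h1.scomp z h2
    have h4 : (avg e (fun s => g (-s))) ∘ (fun s : ℝ => -s) = avg e g := by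
      ext s; exact avg_neg e g s
    rw [h4] at h3
    refine h3.congr_deriv ?_
    rw [avg_neg, smul_smul, neg_neg]
    congr 1
    field_simp
  · exact hasDerivAt_avg_pos e hg h

/-- The function `z V(z) = r u'(r)` gains one derivative. -/
theorem hasDerivAt_smul_avg [CompleteSpace E] (e : ℕ) {g : ℝ → E} (hg : Continuous g) (z : ℝ) :
    HasDerivAt (fun z => z • avg e g z)
      ((1 / 2 : ℝ) • (g z + (1 - (e : ℝ)) • avg e g z)) z := by
  rcases eq_or_ne z 0 with rfl | hz
  · have h0 : (1 / 2 : ℝ) • (g 0 + (1 - (e : ℝ)) • avg e g 0) = avg e g 0 := by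
      rw [avg_zero, smul_smul, ← one_smul ℝ (g 0)]
      simp only [smul_smul]
      rw [← add_smul, smul_smul]
      congr 1
      have : (e : ℝ) + 1 ≠ 0 := by positivity
      field_simp
      ring
    rw [h0, hasDerivAt_iff_tendsto_slope]
    have hc := (avg_continuous e hg).tendsto 0
    refine (hc.mono_left nhdsWithin_le_nhds).congr' ?_
    filter_upwards [self_mem_nhdsWithin] with x hx
    rw [slope_def_module]
    have : x ≠ 0 := hx
    simp [smul_smul, inv_mul_cancel₀ this]
  · have h1 := (hasDerivAt_id z).smul (hasDerivAt_avg e hg hz)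
    simp only [id_eq, one_smul] at h1
    refine h1.congr_deriv ?_
    rw [smul_smul]
    have h2 : z * (1 / (2 * z)) = 1 / 2 := by field_simp
    rw [h2, smul_sub, smul_add, smul_smul, smul_smul]
    have h3 : avg e g z = (1 : ℝ) • avg e g z := (one_smul _ _).symm
    nth_rewrite 2 [h3]
    rw [sub_add, ← sub_smul, sub_eq_add_neg, ← neg_smul]
    congr 2
    ring

/-- Differentiation under the averaging integral. -/
theorem hasDerivAt_avg_of_contDiff [CompleteSpace E] (e : ℕ) {g : ℝ → E} (hg : ContDiff ℝ 1 g)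
    (z : ℝ) : HasDerivAt (avg e g) (avg (e + 2) (deriv g) z) z := by
  have hd : Continuous (deriv g) := hg.continuous_deriv le_rfl
  have hdiff : Differentiable ℝ g := hg.differentiable (by norm_num)
  obtain ⟨M, hM⟩ : ∃ M : ℝ, ∀ s ∈ Icc (-(|z| + 1)) (|z| + 1), ‖deriv g s‖ ≤ M := by
    have := isCompact_Icc (a := (-(|z| + 1))) (b := |z| + 1)
    exact this.exists_bound_of_continuousOn hd.continuousOn
  have h := intervalIntegral.hasDerivAt_integral_of_dominated_loc_of_deriv_le
    (μ := volume) (a := (0 : ℝ)) (b := 1) (x₀ := z) (s := Metric.ball z 1)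
    (F := fun z t => t ^ e • g (z * t ^ 2)) (F' := fun z t => t ^ (e + 2) • deriv g (z * t ^ 2))
    (bound := fun _ => M) (Metric.ball_mem_nhds _ one_pos)
    (Filter.Eventually.of_forall fun x => by
      have : Continuous fun t : ℝ => t ^ e • g (x * t ^ 2) := by
        have := hg.continuous; fun_prop
      exact this.aestronglyMeasurable)
    (by
      have : Continuous fun t : ℝ => t ^ e • g (z * t ^ 2) := by
        have := hg.continuous; fun_prop
      exact this.intervalIntegrable _ _)
    (by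
      have : Continuous fun t : ℝ => t ^ (e + 2) • deriv g (z * t ^ 2) := by fun_prop
      exact this.aestronglyMeasurable)
    (Filter.Eventually.of_forall fun t ht x hx => by
      rw [uIoc_of_le zero_le_one] at ht
      rw [norm_smul, norm_pow, Real.norm_eq_abs, abs_of_pos ht.1]
      have hx1 : |x| ≤ |z| + 1 := by
        rw [Metric.mem_ball, Real.dist_eq] at hx
        calc |x| = |(x - z) + z| := by ring_nf
          _ ≤ |x - z| + |z| := abs_add_le _ _
          _ ≤ _ := by linarith
      have ht2 : t ^ 2 ≤ 1 := pow_le_one₀ ht.1.le ht.2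
      have hx2 : |x * t ^ 2| ≤ |z| + 1 := by
        rw [abs_mul, abs_of_nonneg (by positivity : (0 : ℝ) ≤ t ^ 2)]
        nlinarith [abs_nonneg x]
      have h1 := hM (x * t ^ 2) (abs_le.mp hx2)
      have h2 : t ^ (e + 2) ≤ 1 := pow_le_one₀ ht.1.le ht.2
      have h3 : 0 ≤ t ^ (e + 2) := by have := ht.1.le; positivity
      nlinarith [norm_nonneg (deriv g (x * t ^ 2))])
    (by simp)
    (Filter.Eventually.of_forall fun t ht x hx => by
      have h1 : HasDerivAt (fun x : ℝ => x * t ^ 2) (t ^ 2) x := by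
        simpa using (hasDerivAt_id x).mul_const (t ^ 2)
      have h2 := (hdiff (x * t ^ 2)).hasDerivAt.scomp x h1
      have h3 := h2.const_smul (t ^ e)
      refine h3.congr_deriv ?_
      rw [smul_smul, ← pow_add])
  exact h.2

theorem contDiff_avg [CompleteSpace E] (n : ℕ) :
    ∀ (e : ℕ) {g : ℝ → E}, ContDiff ℝ n g → ContDiff ℝ n (avg e g) := by
  induction n with
  | zero =>
    intro e g hg
    exact contDiff_zero.mpr (avg_continuous e (contDiff_zero.mp hg))
  | succ n ih =>
    intro e g hg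
    have h1 : ContDiff ℝ 1 g := hg.of_le (by
      push_cast; exact le_add_self)
    have hder : deriv (avg e g) = avg (e + 2) (deriv g) := by
      ext z; exact (hasDerivAt_avg_of_contDiff e h1 z).deriv
    push_cast at hg ⊢
    rw [contDiff_succ_iff_deriv] at hg ⊢
    refine ⟨fun z => (hasDerivAt_avg_of_contDiff e h1 z).differentiableAt, by simp, ?_⟩
    rw [hder]
    exact ih (e + 2) hg.2.2

theorem hasDerivAt_prim [CompleteSpace E] (u₀ : E) {V : ℝ → E} (hV : Continuous V) (z : ℝ) :
    HasDerivAt (prim u₀ V) ((1 / 2 : ℝ) • V z) z := by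
  unfold prim
  have := intervalIntegral.integral_hasDerivAt_right (hV.intervalIntegrable 0 z)
      (hV.stronglyMeasurableAtFilter _ _) hV.continuousAt
  exact (this.const_smul (1 / 2 : ℝ)).const_add u₀

/-- Smoothness of global regular solutions. -/
theorem IsReg.contDiff [CompleteSpace E] {e : ℕ} {H : ℝ → E → E → E} {u₀ : E} {V : ℝ → E}
    (hV : Continuous V) (h : IsReg e H u₀ V univ) (n : ℕ)
    (hH : ContDiff ℝ n fun q : ℝ × E × E => H q.1 q.2.1 q.2.2) :
    ContDiff ℝ n V ∧ ContDiff ℝ (n + 1) (prim u₀ V) ∧ ContDiff ℝ (n + 1) (fun z => z • V z) := by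
  have hHc : Continuous fun q : ℝ × E × E => H q.1 q.2.1 q.2.2 := hH.continuous
  have hrc : Continuous (rhs H u₀ V) := rhs_continuous hHc u₀ hV
  have hVeq : V = avg e (rhs H u₀ V) := by ext z; exact h z (mem_univ z)
  have step : ∀ k : ℕ, k ≤ n → ContDiff ℝ k V ∧ ContDiff ℝ (k + 1) (prim u₀ V) ∧
      ContDiff ℝ (k + 1) (fun z => z • V z) := by
    have aux : ∀ k : ℕ, ContDiff ℝ k V → ContDiff ℝ k (rhs H u₀ V) →
        ContDiff ℝ (k + 1) (prim u₀ V) ∧ ContDiff ℝ (k + 1) (fun z => z • V z) := by
      intro k hk hr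
      constructor
      · rw [contDiff_succ_iff_deriv]
        refine ⟨fun z => (hasDerivAt_prim u₀ hV z).differentiableAt, by simp, ?_⟩
        have : deriv (prim u₀ V) = fun z => (1 / 2 : ℝ) • V z := by
          ext z; exact (hasDerivAt_prim u₀ hV z).deriv
        rw [this]; exact contDiff_const.smul hk
      · rw [contDiff_succ_iff_deriv]
        have hd : ∀ z, HasDerivAt (fun z => z • V z)
            ((1 / 2 : ℝ) • (rhs H u₀ V z + (1 - (e : ℝ)) • V z)) z := by
          intro z
          have := hasDerivAt_smul_avg e hrc z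
          rw [← hVeq] at this
          exact this
        refine ⟨fun z => (hd z).differentiableAt, by simp, ?_⟩
        have : deriv (fun z => z • V z) =
            fun z => (1 / 2 : ℝ) • (rhs H u₀ V z + (1 - (e : ℝ)) • V z) := by
          ext z; exact (hd z).deriv
        rw [this]
        exact contDiff_const.smul (hr.add (contDiff_const.smul hk))
    intro k
    induction k with
    | zero =>
      intro _
      have h0 : ContDiff ℝ (0 : ℕ) V := contDiff_zero.mpr hV
      exact ⟨h0, aux 0 h0 (contDiff_zero.mpr hrc)⟩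
    | succ k ih =>
      intro hk
      obtain ⟨h1, h2, h3⟩ := ih (by omega)
      have hr : ContDiff ℝ (k + 1 : ℕ) (rhs H u₀ V) := by
        have h4 : ContDiff ℝ (k + 1 : ℕ) fun z : ℝ => (z, prim u₀ V z, z • V z) := by
          push_cast
          exact contDiff_id.prodMk (h2.prodMk h3)
        have h5 : ContDiff ℝ (k + 1 : ℕ) fun q : ℝ × E × E => H q.1 q.2.1 q.2.2 :=
          hH.of_le (by exact_mod_cast hk)
        exact h5.comp h4
      have hk1 : ContDiff ℝ (k + 1 : ℕ) V := by
        rw [hVeq]; exact contDiff_avg (k + 1) e hr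
      exact ⟨hk1, aux (k + 1) hk1 hr⟩
  have := step n le_rfl
  exact this

end Vale.Agent.P139.H499
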