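import Mathlib
import Vale.Agent.P139.H499.RI2

/-!
# Dependence on data, classical form of the radial equation
-/

open Set MeasureTheory Filter Topology
open scoped NNReal BoundedContinuousFunction ContDiff

namespace Vale.Agent.P139.H499

variable {E : Type*} [NormedAddCommGroup E] [NormedSpace ℝ E]

/-- Stability estimate: comparison of regular solutions for two right-hand sides/data. -/
theorem IsReg.dist_le [CompleteSpace E] {e : ℕ} {H H' : ℝ → E → E → E}
    (hH : Continuous fun q : ℝ × E × E => H q.1 q.2.1 q.2.2)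
    (hH' : Continuous fun q : ℝ × E × E => H' q.1 q.2.1 q.2.2) {L : ℝ} (hL : 0 ≤ L) {Z : ℝ}
    (hLip : ∀ s ∈ uIcc 0 Z, ∀ u p u' p', ‖H s u p - H s u' p'‖ ≤ L * (‖u - u'‖ + ‖p - p'‖))
    {u₀ u₀' : E} {V V' : ℝ → E} (hV : Continuous V) (hV' : Continuous V')
    (h1 : IsReg e H u₀ V (uIcc 0 Z)) (h2 : IsReg e H' u₀' V' (uIcc 0 Z)) {δ : ℝ} (hδ : 0 ≤ δ)
    (hd : ∀ s ∈ uIcc 0 Z,
      ‖H s (prim u₀ V' s) (s • V' s) - H' s (prim u₀' V' s) (s • V' s)‖ ≤ δ) :
    ∀ z ∈ uIcc 0 Z, ‖V z - V' z‖ ≤ 2 * δ * Real.exp ((2 * L + 1) * |z|) := by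
  set κ : ℝ := 2 * L + 1 with hκdef
  have hκ : 0 < κ := by positivity
  have hhalf : L / κ ≤ 1 / 2 := by
    rw [div_le_iff₀ hκ, hκdef]; linarith
  have cf : Continuous fun z : ℝ => Real.exp (-(κ * |z|)) * ‖V z - V' z‖ := by fun_prop
  obtain ⟨z₀, hz₀, hmax⟩ := (isCompact_uIcc (a := (0 : ℝ)) (b := Z)).exists_isMaxOn
    ⟨0, left_mem_uIcc⟩ cf.continuousOn
  set C := Real.exp (-(κ * |z₀|)) * ‖V z₀ - V' z₀‖ with hC
  have hC0 : 0 ≤ C := by positivity
  have hb : ∀ s ∈ uIcc 0 Z, ‖V s - V' s‖ ≤ C * Real.exp (κ * |s|) := by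
    intro s hs
    have := hmax hs
    simp only [Set.mem_ofPred_eq] at this
    calc ‖V s - V' s‖ = (Real.exp (-(κ * |s|)) * ‖V s - V' s‖) * Real.exp (κ * |s|) := by
          rw [mul_comm (Real.exp (-(κ * |s|))), mul_assoc, ← Real.exp_add]; simp
      _ ≤ _ := mul_le_mul_of_nonneg_right this (Real.exp_pos _).le
  have h3 := norm_map_sub_le e hH hL u₀ hV hV' (z := z₀) hκ hC0
    (fun s hs => hLip s (mem_uIcc_zero_trans hz₀ hs)) (fun s hs => hb s (mem_uIcc_zero_trans hz₀ hs))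
  have h4 : ‖avg e (rhs H u₀ V') z₀ - avg e (rhs H' u₀' V') z₀‖ ≤ δ * Real.exp (κ * |z₀|) := by
    have c1 := rhs_continuous hH u₀ hV'
    have c2 := rhs_continuous hH' u₀' hV'
    have e1 : avg e (rhs H u₀ V') z₀ - avg e (rhs H' u₀' V') z₀
        = avg e (fun s => rhs H u₀ V' s - rhs H' u₀' V' s) z₀ := by
      unfold avg
      rw [← intervalIntegral.integral_sub]
      · congr 1; ext t
        simp only []
        rw [← smul_sub]
      all_goals apply Continuous.intervalIntegrable; fun_prop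
    rw [e1]
    apply norm_avg_le e hκ hδ
    intro s hs
    have h5 := hd s (mem_uIcc_zero_trans hz₀ hs)
    have h6 : 1 ≤ Real.exp (κ * |s|) := Real.one_le_exp (by positivity)
    calc _ ≤ δ := h5
      _ = δ * 1 := (mul_one _).symm
      _ ≤ _ := mul_le_mul_of_nonneg_left h6 hδ
  have h5 : ‖V z₀ - V' z₀‖ ≤ (L / κ * C + δ) * Real.exp (κ * |z₀|) := by
    rw [h1 z₀ hz₀, h2 z₀ hz₀]
    calc ‖avg e (rhs H u₀ V) z₀ - avg e (rhs H' u₀' V') z₀‖
        = ‖(avg e (rhs H u₀ V) z₀ - avg e (rhs H u₀ V') z₀) +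
            (avg e (rhs H u₀ V') z₀ - avg e (rhs H' u₀' V') z₀)‖ := by rw [sub_add_sub_cancel]
      _ ≤ _ := norm_add_le _ _
      _ ≤ _ := add_le_add h3 h4
      _ = _ := by ring
  have h6 : C ≤ 1 / 2 * C + δ := by
    calc C ≤ Real.exp (-(κ * |z₀|)) * ((L / κ * C + δ) * Real.exp (κ * |z₀|)) := by
          rw [hC]; exact mul_le_mul_of_nonneg_left h5 (Real.exp_pos _).le
      _ = (L / κ * C + δ) * (Real.exp (-(κ * |z₀|)) * Real.exp (κ * |z₀|)) := by ring
      _ = L / κ * C + δ := by rw [← Real.exp_add]; simp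
      _ ≤ _ := by
        have := mul_le_mul_of_nonneg_right hhalf hC0
        linarith
  have h7 : C ≤ 2 * δ := by linarith
  intro z hz
  exact (hb z hz).trans (mul_le_mul_of_nonneg_right h7 (Real.exp_pos _).le)

/-- The radial function `u(r) = U(r²)` attached to `(u₀, V)`. -/
noncomputable def radU (u₀ : E) (V : ℝ → E) (r : ℝ) : E := prim u₀ V (r ^ 2)

/-- Its derivative `u'(r) = r V(r²)`. -/
noncomputable def radD (V : ℝ → E) (r : ℝ) : E := r • V (r ^ 2)

theorem hasDerivAt_radU [CompleteSpace E] (u₀ : E) {V : ℝ → E} (hV : Continuous V) (r : ℝ) :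
    HasDerivAt (radU u₀ V) (radD V r) r := by
  have h1 := hasDerivAt_prim u₀ hV (r ^ 2)
  have h2 : HasDerivAt (fun r : ℝ => r ^ 2) (2 * r) r := by simpa using hasDerivAt_pow 2 r
  have h3 := HasDerivAt.scomp (h := fun r : ℝ => r ^ 2) r h1 h2
  refine h3.congr_deriv ?_
  rw [smul_smul]; unfold radD; congr 1; ring

/-- Flux form of the radial equation, valid for all `r`. -/
theorem hasDerivAt_flux [CompleteSpace E] {e : ℕ} {H : ℝ → E → E → E} {u₀ : E} {V : ℝ → E}
    (hH : Continuous fun q : ℝ × E × E => H q.1 q.2.1 q.2.2) (hV : Continuous V)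
    (h : IsReg e H u₀ V univ) (r : ℝ) :
    HasDerivAt (fun r => r ^ e • radD V r)
      (r ^ e • H (r ^ 2) (radU u₀ V r) (r • radD V r)) r := by
  have hrc : Continuous (rhs H u₀ V) := rhs_continuous hH u₀ hV
  have h1 : (fun r => r ^ e • radD V r) =
      fun r => ∫ s in (0 : ℝ)..r, s ^ e • rhs H u₀ V (s ^ 2) := by
    ext s
    rw [← avg_sq e (rhs H u₀ V) s, ← h (s ^ 2) (mem_univ _)]
    unfold radD
    rw [smul_smul, ← pow_succ]
  rw [h1]
  have hc : Continuous fun s : ℝ => s ^ e • rhs H u₀ V (s ^ 2) := by fun_prop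
  have h2 := intervalIntegral.integral_hasDerivAt_right (hc.intervalIntegrable 0 r)
      (hc.stronglyMeasurableAtFilter _ _) hc.continuousAt
  refine h2.congr_deriv ?_
  unfold rhs radU radD
  rw [smul_smul, ← pow_two]

theorem continuous_radD {V : ℝ → E} (hV : Continuous V) : Continuous (radD V) := by
  unfold radD; fun_prop

/-- Classical form of the equation for `r ≠ 0`. -/
theorem hasDerivAt_radD [CompleteSpace E] {e : ℕ} {H : ℝ → E → E → E} {u₀ : E} {V : ℝ → E}
    (hH : Continuous fun q : ℝ × E × E => H q.1 q.2.1 q.2.2) (hV : Continuous V)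
    (h : IsReg e H u₀ V univ) {r : ℝ} (hr : r ≠ 0) :
    HasDerivAt (radD V)
      (H (r ^ 2) (radU u₀ V r) (r • radD V r) - ((e : ℝ) / r) • radD V r) r := by
  have h1 := hasDerivAt_flux hH hV h r
  have h2 : HasDerivAt (fun r : ℝ => (r ^ e)⁻¹) (-((e : ℝ) * r ^ (e - 1)) / (r ^ e) ^ 2) r :=
    (hasDerivAt_pow e r).inv (pow_ne_zero _ hr)
  have h3 := h2.smul h1
  have h4 : (fun r : ℝ => (r ^ e)⁻¹ • (r ^ e • radD V r)) =ᶠ[𝓝 r] radD V := by
    filter_upwards [isOpen_ne.mem_nhds hr] with x hx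
    rw [smul_smul, inv_mul_cancel₀ (pow_ne_zero _ hx), one_smul]
  have h5 := h3.congr_of_eventuallyEq (f₁ := radD V) (by
    filter_upwards [h4] with x hx
    exact hx.symm)
  refine h5.congr_deriv ?_
  rw [smul_smul, smul_smul, inv_mul_cancel₀ (pow_ne_zero _ hr), one_smul, sub_eq_add_neg,
    ← neg_smul]
  congr 2
  rcases e with _ | e
  · simp
  · simp only [Nat.add_sub_cancel]
    field_simp
    ring

/-- Converse: a continuous `V` satisfying the first order equation is a regular solution. -/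
theorem isReg_of_flux [CompleteSpace E] {e : ℕ} {H : ℝ → E → E → E} {u₀ : E} {V : ℝ → E}
    (hH : Continuous fun q : ℝ × E × E => H q.1 q.2.1 q.2.2) (hV : Continuous V) {R : ℝ}
    (hR : 0 < R)
    (h : ∀ r ∈ Ioo 0 R, HasDerivAt (fun r => r ^ e • radD V r)
      (r ^ e • H (r ^ 2) (radU u₀ V r) (r • radD V r)) r) :
    IsReg e H u₀ V (Icc 0 (R ^ 2)) := by
  have hrc : Continuous (rhs H u₀ V) := rhs_continuous hH u₀ hV
  have hc : Continuous fun s : ℝ => s ^ e • rhs H u₀ V (s ^ 2) := by fun_prop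
  have key : ∀ r ∈ Icc 0 R, r ^ e • radD V r = ∫ s in (0 : ℝ)..r, s ^ e • rhs H u₀ V (s ^ 2) := by
    intro r hr
    have hcd : Continuous fun r : ℝ => r ^ e • radD V r := by
      have := continuous_radD hV; fun_prop
    have h1 := intervalIntegral.integral_eq_sub_of_hasDerivAt_of_le hr.1
      (f := fun r => r ^ e • radD V r)
      (f' := fun r => r ^ e • H (r ^ 2) (radU u₀ V r) (r • radD V r))
      hcd.continuousOn (fun x hx => h x ⟨hx.1, hx.2.trans_le hr.2⟩) (by
        have h2 : (fun r : ℝ => r ^ e • H (r ^ 2) (radU u₀ V r) (r • radD V r)) =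
            fun s : ℝ => s ^ e • rhs H u₀ V (s ^ 2) := by
          ext s; unfold rhs radU radD; rw [smul_smul, ← pow_two]
        rw [h2]; exact hc.intervalIntegrable _ _)
    have h3 : (0 : ℝ) ^ e • radD V 0 = 0 := by unfold radD; simp
    rw [h3, sub_zero] at h1
    rw [← h1]
    congr 1
    ext s; unfold rhs radU radD; rw [smul_smul, ← pow_two]
  have key2 : ∀ z ∈ Ioc 0 (R ^ 2), V z = avg e (rhs H u₀ V) z := by
    intro z hz
    have hz0 : 0 < Real.sqrt z := Real.sqrt_pos.mpr hz.1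
    have hzR : Real.sqrt z ≤ R := by
      rw [← Real.sqrt_sq hR.le]; exact Real.sqrt_le_sqrt hz.2
    have h1 := key (Real.sqrt z) ⟨hz0.le, hzR⟩
    rw [← avg_sq] at h1
    unfold radD at h1
    rw [smul_smul, ← pow_succ, Real.sq_sqrt hz.1.le] at h1
    have h2 := congrArg (fun v => ((Real.sqrt z ^ (e + 1))⁻¹ : ℝ) • v) h1
    simp only [smul_smul] at h2
    rwa [inv_mul_cancel₀ (by positivity), one_smul, one_smul] at h2
  intro z hz
  rcases eq_or_lt_of_le hz.1 with h0 | h0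
  · subst h0
    · have c1 : Tendsto V (𝓝[>] 0) (𝓝 (V 0)) := hV.continuousAt.tendsto.mono_left nhdsWithin_le_nhds
      have c2 : Tendsto (avg e (rhs H u₀ V)) (𝓝[>] 0) (𝓝 (avg e (rhs H u₀ V) 0)) :=
        (avg_continuous e hrc).continuousAt.tendsto.mono_left nhdsWithin_le_nhds
      refine tendsto_nhds_unique (c1.congr' ?_) c2
      have : Ioc 0 (R ^ 2) ∈ 𝓝[>] (0 : ℝ) := Ioc_mem_nhdsGT (by positivity)
      filter_upwards [this] with x hx
      exact key2 x hx
  · exact key2 z ⟨h0, hz.2⟩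

end Vale.Agent.P139.H499
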