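import Mathlib
import Vale.Agent.P139.H499.RI3

/-!
# The (truncated) profile equation as a regular initial value problem

`Q'' + (e/r) Q' + (w + i a) Q + (i/2) r Q' = |Q|^{2m} Q`, `a = 1/(2m)`, with `|Q|^{2m}` replaced by
`(min |Q|² 2)^m`.
-/

open Set MeasureTheory Filter Topology
open scoped NNReal BoundedContinuousFunction ContDiff

namespace Vale.Agent.P139.H499

/-- Truncated power `(min s 2)^m`. -/
noncomputable def capPow (m : ℕ) (s : ℝ) : ℝ := (min s 2) ^ m

theorem capPow_of_le {m : ℕ} {s : ℝ} (hs : s ≤ 2) : capPow m s = s ^ m := by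
  unfold capPow; rw [min_eq_left hs]

theorem capPow_of_ge {m : ℕ} {s : ℝ} (hs : 2 ≤ s) : capPow m s = 2 ^ m := by
  unfold capPow; rw [min_eq_right hs]

theorem capPow_nonneg {m : ℕ} {s : ℝ} (hs : 0 ≤ s) : 0 ≤ capPow m s := by
  unfold capPow; positivity

theorem capPow_le {m : ℕ} {s : ℝ} (hs : 0 ≤ s) : capPow m s ≤ 2 ^ m := by
  unfold capPow
  exact pow_le_pow_left₀ (by positivity) (min_le_right _ _) _

theorem capPow_mono {m : ℕ} {s t : ℝ} (hs : 0 ≤ s) (hst : s ≤ t) : capPow m s ≤ capPow m t := by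
  unfold capPow
  exact pow_le_pow_left₀ (by positivity) (min_le_min_right _ hst) _

theorem continuous_capPow (m : ℕ) : Continuous (capPow m) := by
  unfold capPow; fun_prop

theorem abs_pow_sub_pow_le' {m : ℕ} {x y : ℝ} (hx : 0 ≤ x) (hxy : x ≤ y) (hy : y ≤ 2) :
    y ^ m - x ^ m ≤ m * 2 ^ m * (y - x) := by
  induction m with
  | zero => simp
  | succ m ih =>
    have h1 : y ^ (m + 1) - x ^ (m + 1) = y * (y ^ m - x ^ m) + x ^ m * (y - x) := by ring
    have h2 : y * (y ^ m - x ^ m) ≤ 2 * (m * 2 ^ m * (y - x)) := by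
      have h3 : 0 ≤ y ^ m - x ^ m := sub_nonneg.mpr (pow_le_pow_left₀ hx hxy m)
      have h4 : 0 ≤ (m : ℝ) * 2 ^ m * (y - x) := h3.trans ih
      calc y * (y ^ m - x ^ m) ≤ 2 * (y ^ m - x ^ m) := mul_le_mul_of_nonneg_right hy h3
        _ ≤ _ := mul_le_mul_of_nonneg_left ih (by norm_num)
    have h5 : x ^ m * (y - x) ≤ 2 ^ m * (y - x) :=
      mul_le_mul_of_nonneg_right (pow_le_pow_left₀ hx (hxy.trans hy) m) (by linarith)
    rw [h1]
    push_cast
    calc _ ≤ 2 * (↑m * 2 ^ m * (y - x)) + 2 ^ m * (y - x) := add_le_add h2 h5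
      _ ≤ (↑m + 1) * 2 ^ (m + 1) * (y - x) := by
        rw [pow_succ]
        have : 0 ≤ (2 : ℝ) ^ m * (y - x) := mul_nonneg (by positivity) (by linarith)
        nlinarith

/-- The truncated nonlinearity is globally Lipschitz. -/
theorem capPow_lipschitz (m : ℕ) (Q Q' : ℂ) :
    ‖(capPow m (Complex.normSq Q) : ℂ) * Q - (capPow m (Complex.normSq Q') : ℂ) * Q'‖
      ≤ 2 ^ m * (1 + 4 * m) * ‖Q - Q'‖ := by
  -- wlog `‖Q‖ ≤ ‖Q'‖`
  wlog hQ : ‖Q‖ ≤ ‖Q'‖ generalizing Q Q' with H
  · have := H Q' Q (le_of_not_ge hQ)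
    rw [norm_sub_rev, norm_sub_rev Q Q']
    exact this
  set s := Complex.normSq Q with hs
  set s' := Complex.normSq Q' with hs'
  have hsn : s = ‖Q‖ ^ 2 := Complex.normSq_eq_norm_sq Q
  have hsn' : s' = ‖Q'‖ ^ 2 := Complex.normSq_eq_norm_sq Q'
  have h1 : (capPow m s : ℂ) * Q - (capPow m s' : ℂ) * Q' =
      ((capPow m s - capPow m s' : ℝ) : ℂ) * Q + (capPow m s' : ℂ) * (Q - Q') := by
    push_cast; ring
  have hss : s ≤ s' := by
    rw [hsn, hsn']; exact pow_le_pow_left₀ (norm_nonneg _) hQ 2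
  have hs0 : 0 ≤ s := Complex.normSq_nonneg _
  have hmono := capPow_mono (m := m) hs0 hss
  have hcap' := capPow_le (m := m) (hs0.trans hss)
  have hcap'0 := capPow_nonneg (m := m) (hs0.trans hss)
  rw [h1]
  refine (norm_add_le _ _).trans ?_
  rw [norm_mul, norm_mul, Complex.norm_real, Complex.norm_real, Real.norm_eq_abs,
    Real.norm_eq_abs, abs_of_nonneg hcap'0]
  have h2 : |capPow m s - capPow m s'| * ‖Q‖ ≤ 2 ^ m * (4 * m) * ‖Q - Q'‖ := by
    rw [abs_sub_comm, abs_of_nonneg (by linarith)]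
    rcases le_total 2 s with h | h
    · rw [capPow_of_ge h, capPow_of_ge (h.trans hss)]
      simp; positivity
    · have hmin : capPow m s' - capPow m s ≤ m * 2 ^ m * (min s' 2 - s) := by
        rw [capPow_of_le h]
        unfold capPow
        exact abs_pow_sub_pow_le' hs0 (le_min hss h) (min_le_right _ _)
      -- `min s' 2 - s ≤ 2 √2 ‖Q - Q'‖`
      set t := min ‖Q'‖ (Real.sqrt 2) with ht
      have ht0 : 0 ≤ t := by positivity
      have hr2 : Real.sqrt 2 ^ 2 = 2 := Real.sq_sqrt (by norm_num)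
      have ht2 : min s' 2 ≤ t ^ 2 := by
        rcases le_total ‖Q'‖ (Real.sqrt 2) with h' | h'
        · rw [ht, min_eq_left h', ← hsn']; exact min_le_left _ _
        · rw [ht, min_eq_right h', hr2]; exact min_le_right _ _
      have hQs : ‖Q‖ ≤ Real.sqrt 2 := by
        apply Real.le_sqrt_of_sq_le; rw [← hsn]; exact h
      have hQt : ‖Q‖ ≤ t := le_min hQ hQs
      have htQ : t - ‖Q‖ ≤ ‖Q - Q'‖ := by
        have h3 : t ≤ ‖Q'‖ := min_le_left _ _
        have h4 : ‖Q'‖ - ‖Q‖ ≤ ‖Q - Q'‖ := by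
          rw [norm_sub_rev]; exact norm_sub_norm_le _ _
        linarith
      have ht1 : t ≤ Real.sqrt 2 := min_le_right _ _
      have h5 : min s' 2 - s ≤ (2 * Real.sqrt 2) * ‖Q - Q'‖ := by
        rw [hsn]
        calc min s' 2 - ‖Q‖ ^ 2 ≤ t ^ 2 - ‖Q‖ ^ 2 := by linarith
          _ = (t + ‖Q‖) * (t - ‖Q‖) := by ring
          _ ≤ (2 * Real.sqrt 2) * ‖Q - Q'‖ := by
            apply mul_le_mul (by linarith) htQ (by linarith) (by positivity)
      calc (capPow m s' - capPow m s) * ‖Q‖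
          ≤ (m * 2 ^ m * ((2 * Real.sqrt 2) * ‖Q - Q'‖)) * Real.sqrt 2 := by
            apply mul_le_mul _ hQs (norm_nonneg _) (by positivity)
            exact hmin.trans (mul_le_mul_of_nonneg_left h5 (by positivity))
        _ = 2 ^ m * (2 * (Real.sqrt 2 ^ 2) * m) * ‖Q - Q'‖ := by ring
        _ = 2 ^ m * (4 * m) * ‖Q - Q'‖ := by rw [hr2]; ring
  have h3 : capPow m s' * ‖Q - Q'‖ ≤ 2 ^ m * ‖Q - Q'‖ :=
    mul_le_mul_of_nonneg_right hcap' (norm_nonneg _)
  calc _ ≤ 2 ^ m * (4 * m) * ‖Q - Q'‖ + 2 ^ m * ‖Q - Q'‖ := add_le_add h2 h3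
    _ = _ := by ring

/-- Right-hand side of the truncated profile equation, arguments `Q` and `p = r Q'`. -/
noncomputable def Hprof (m : ℕ) (w : ℝ) (_z : ℝ) (Q p : ℂ) : ℂ :=
  (capPow m (Complex.normSq Q) : ℂ) * Q - ((w : ℂ) + Complex.I / (2 * m)) * Q
    - (Complex.I / 2) * p

/-- Lipschitz constant. -/
noncomputable def Lprof (m : ℕ) (W : ℝ) : ℝ := 2 ^ m * (1 + 4 * m) + W + 1 / 2

theorem Hprof_lipschitz {m : ℕ} (hm : 1 ≤ m) {w W : ℝ} (hw : |w| + 1 / 2 ≤ W) (z : ℝ)
    (u p u' p' : ℂ) :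
    ‖Hprof m w z u p - Hprof m w z u' p'‖ ≤ Lprof m W * (‖u - u'‖ + ‖p - p'‖) := by
  have hmR : (1 : ℝ) ≤ m := by exact_mod_cast hm
  have h1 : Hprof m w z u p - Hprof m w z u' p' =
      ((capPow m (Complex.normSq u) : ℂ) * u - (capPow m (Complex.normSq u') : ℂ) * u')
      + (-(((w : ℂ) + Complex.I / (2 * m)) * (u - u'))) + (-((Complex.I / 2) * (p - p'))) := by
    unfold Hprof; ring
  rw [h1]
  refine (norm_add₃_le).trans ?_
  have h2 := capPow_lipschitz m u u'
  have h3 : ‖-(((w : ℂ) + Complex.I / (2 * m)) * (u - u'))‖ ≤ W * ‖u - u'‖ := by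
    rw [norm_neg, norm_mul]
    apply mul_le_mul_of_nonneg_right _ (norm_nonneg _)
    calc ‖(w : ℂ) + Complex.I / (2 * m)‖ ≤ ‖(w : ℂ)‖ + ‖Complex.I / (2 * m)‖ := norm_add_le _ _
      _ ≤ |w| + 1 / 2 := by
        apply add_le_add
        · rw [Complex.norm_real, Real.norm_eq_abs]
        · rw [norm_div, Complex.norm_I, norm_mul]
          simp only [Complex.norm_ofNat, Complex.norm_natCast]
          apply div_le_div_of_nonneg_left (by norm_num) (by norm_num)
          linarith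
      _ ≤ W := hw
  have h4 : ‖-((Complex.I / 2) * (p - p'))‖ ≤ 1 / 2 * ‖p - p'‖ := by
    rw [norm_neg, norm_mul, norm_div, Complex.norm_I]; simp
  have hW0 : 0 ≤ W := by
    have := abs_nonneg w; linarith
  unfold Lprof
  have n1 := norm_nonneg (u - u')
  have n2 := norm_nonneg (p - p')
  have n3 : (0 : ℝ) ≤ 2 ^ m * (1 + 4 * m) := by positivity
  nlinarith [mul_nonneg n3 n2, mul_nonneg hW0 n2]

theorem Hprof_continuous (m : ℕ) (w : ℝ) :
    Continuous fun q : ℝ × ℂ × ℂ => Hprof m w q.1 q.2.1 q.2.2 := by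
  unfold Hprof
  have := continuous_capPow m
  fun_prop

theorem exists_profV (e m : ℕ) (hm : 1 ≤ m) (w q₀ : ℝ) :
    ∃ V : ℝ → ℂ, Continuous V ∧ IsReg e (Hprof m w) (q₀ : ℂ) V univ := by
  obtain ⟨V, h1, h2, _⟩ := exists_isReg e (Hprof_continuous m w) (L := Lprof m (|w| + 1 / 2))
    (B := 0) (by unfold Lprof; positivity)
    (fun s u p u' p' => Hprof_lipschitz hm le_rfl s u p u' p') (by simp [Hprof]) (q₀ : ℂ)
  exact ⟨V, h1, h2⟩

/-- The function `V` of the (truncated) profile with value `q₀` at `0`. -/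
noncomputable def profV (e m : ℕ) (w q₀ : ℝ) : ℝ → ℂ :=
  if h : 1 ≤ m then (exists_profV e m h w q₀).choose else 0

/-- The (truncated) profile `Q(r)`. -/
noncomputable def prof (e m : ℕ) (w q₀ : ℝ) (r : ℝ) : ℂ := radU (q₀ : ℂ) (profV e m w q₀) r

/-- Its derivative. -/
noncomputable def profD (e m : ℕ) (w q₀ : ℝ) (r : ℝ) : ℂ := radD (profV e m w q₀) r

theorem prof_zero {e m : ℕ} (w q₀ : ℝ) : prof e m w q₀ 0 = q₀ := by
  unfold prof radU prim; simp

theorem profD_zero {e m : ℕ} (w q₀ : ℝ) : profD e m w q₀ 0 = 0 := by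
  unfold profD radD; simp

section
variable {e m : ℕ} (hm : 1 ≤ m) (w q₀ : ℝ)
include hm

theorem profV_continuous : Continuous (profV e m w q₀) := by
  unfold profV; rw [dif_pos hm]; exact (exists_profV e m hm w q₀).choose_spec.1

theorem profV_isReg : IsReg e (Hprof m w) (q₀ : ℂ) (profV e m w q₀) univ := by
  unfold profV; rw [dif_pos hm]; exact (exists_profV e m hm w q₀).choose_spec.2

theorem hasDerivAt_prof (r : ℝ) : HasDerivAt (prof e m w q₀) (profD e m w q₀ r) r :=
  hasDerivAt_radU _ (profV_continuous hm w q₀) r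

theorem hasDerivAt_profD_flux (r : ℝ) :
    HasDerivAt (fun r : ℝ => r ^ e • profD e m w q₀ r)
      (r ^ e • Hprof m w (r ^ 2) (prof e m w q₀ r) (r • profD e m w q₀ r)) r :=
  hasDerivAt_flux (Hprof_continuous m w) (profV_continuous hm w q₀) (profV_isReg hm w q₀) r

theorem hasDerivAt_profD {r : ℝ} (hr : r ≠ 0) :
    HasDerivAt (profD e m w q₀)
      (Hprof m w (r ^ 2) (prof e m w q₀ r) (r • profD e m w q₀ r)
        - ((e : ℝ) / r) • profD e m w q₀ r) r :=
  hasDerivAt_radD (Hprof_continuous m w) (profV_continuous hm w q₀) (profV_isReg hm w q₀) hr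

end

/-- Joint continuity of `V` in `(w, q₀, z)`. -/
theorem continuous_profV {e m : ℕ} (hm : 1 ≤ m) :
    Continuous fun x : ℝ × ℝ × ℝ => profV e m x.1 x.2.1 x.2.2 := by
  rw [continuous_iff_continuousAt]
  rintro ⟨w', q', z'⟩
  rw [Metric.continuousAt_iff]
  intro ε hε
  -- work on the compact interval `[-Z, Z]`
  set Z := |z'| + 1 with hZ
  have cV' := profV_continuous (e := e) hm w' q'
  obtain ⟨M, hM⟩ : ∃ M : ℝ, ∀ s ∈ Icc (-Z) Z, ‖prim (q' : ℂ) (profV e m w' q') s‖ ≤ M :=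
    (isCompact_Icc (a := -Z) (b := Z)).exists_bound_of_continuousOn
      (prim_continuous _ cV').continuousOn
  have hM0 : 0 ≤ M := (norm_nonneg _).trans (hM 0 ⟨by
    have := abs_nonneg z'; linarith, by have := abs_nonneg z'; linarith⟩)
  set W := |w'| + 1 + 1 / 2 with hW
  set L := Lprof m W with hL
  have hL0 : 0 ≤ L := by rw [hL]; unfold Lprof; positivity
  set K := 2 * Real.exp ((2 * L + 1) * Z) * (M + L + 1) with hK
  have hK0 : 0 < K := by positivity
  have hc : ContinuousAt (profV e m w' q') z' := cV'.continuousAt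
  rw [Metric.continuousAt_iff] at hc
  obtain ⟨δ₁, hδ₁, h1⟩ := hc (ε / 2) (by positivity)
  refine ⟨min (min δ₁ 1) (ε / (4 * K)), by positivity, ?_⟩
  rintro ⟨w, q, z⟩ hdist
  rw [Prod.dist_eq, Prod.dist_eq] at hdist
  have hA : dist w w' < min (min δ₁ 1) (ε / (4 * K)) := (le_max_left _ _).trans_lt hdist
  have hB : dist q q' < min (min δ₁ 1) (ε / (4 * K)) :=
    ((le_max_left _ _).trans (le_max_right _ _)).trans_lt hdist
  have hC : dist z z' < min (min δ₁ 1) (ε / (4 * K)) :=
    ((le_max_right _ _).trans (le_max_right _ _)).trans_lt hdist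
  rw [lt_min_iff, lt_min_iff] at hA hB hC
  obtain ⟨⟨hw1, hw2⟩, hw3⟩ := hA
  obtain ⟨⟨hq1, hq2⟩, hq3⟩ := hB
  obtain ⟨⟨hz1, hz2⟩, hz3⟩ := hC
  simp only
  have hzZ : |z| ≤ Z := by
    rw [Real.dist_eq] at hz2
    calc |z| = |(z - z') + z'| := by ring_nf
      _ ≤ |z - z'| + |z'| := abs_add_le _ _
      _ ≤ Z := by linarith
  have hwW : |w| + 1 / 2 ≤ W := by
    rw [Real.dist_eq] at hw2
    have : |w| ≤ |w'| + 1 := by
      calc |w| = |(w - w') + w'| := by ring_nf
        _ ≤ |w - w'| + |w'| := abs_add_le _ _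
        _ ≤ _ := by linarith
    linarith
  have hcomp := IsReg.dist_le (e := e) (Z := z) (Hprof_continuous m w) (Hprof_continuous m w') hL0
    (fun s _ u p u' p' => Hprof_lipschitz hm hwW s u p u' p')
    (profV_continuous hm w q) cV'
    (fun s _ => profV_isReg hm w q s (mem_univ s)) (fun s _ => profV_isReg hm w' q' s (mem_univ s))
    (δ := |w - w'| * M + L * |q - q'|) (by positivity) (by
      intro s hs
      have hsZ : s ∈ Icc (-Z) Z := by
        have := (abs_le_of_mem_uIcc_zero hs).trans hzZ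
        exact abs_le.mp this
      have hp : prim (q : ℂ) (profV e m w' q') s =
          prim (q' : ℂ) (profV e m w' q') s + ((q - q' : ℝ) : ℂ) := by
        unfold prim; push_cast; ring
      set u := prim (q' : ℂ) (profV e m w' q') s with hu
      set p := s • profV e m w' q' s with hpp
      rw [hp]
      have e1 : Hprof m w s (u + ((q - q' : ℝ) : ℂ)) p - Hprof m w' s u p =
          (Hprof m w s (u + ((q - q' : ℝ) : ℂ)) p - Hprof m w s u p)
            + (-(((w - w' : ℝ) : ℂ) * u)) := by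
        unfold Hprof; push_cast; ring
      rw [e1]
      refine (norm_add_le _ _).trans ?_
      rw [add_comm]
      apply add_le_add
      · rw [norm_neg, norm_mul, Complex.norm_real, Real.norm_eq_abs]
        exact mul_le_mul_of_nonneg_left (hM s hsZ) (abs_nonneg _)
      · have := Hprof_lipschitz hm hwW s (u + ((q - q' : ℝ) : ℂ)) p u p
        rw [add_sub_cancel_left, sub_self, norm_zero, add_zero, Complex.norm_real,
          Real.norm_eq_abs] at this
        exact this) z right_mem_uIcc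
  have h2 : ‖profV e m w q z - profV e m w' q' z‖ < ε / 2 := by
    refine lt_of_le_of_lt hcomp ?_
    rw [Real.dist_eq] at hw3 hq3
    have hexp : Real.exp ((2 * L + 1) * |z|) ≤ Real.exp ((2 * L + 1) * Z) := by
      apply Real.exp_le_exp.mpr
      exact mul_le_mul_of_nonneg_left hzZ (by positivity)
    have hsmall : |w - w'| * M + L * |q - q'| ≤ ε / (4 * K) * (M + L) := by
      nlinarith [abs_nonneg (w - w'), abs_nonneg (q - q')]
    calc 2 * (|w - w'| * M + L * |q - q'|) * Real.exp ((2 * L + 1) * |z|)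
        ≤ 2 * (ε / (4 * K) * (M + L)) * Real.exp ((2 * L + 1) * Z) := by
          apply mul_le_mul (mul_le_mul_of_nonneg_left hsmall (by norm_num)) hexp
            (Real.exp_pos _).le (by positivity)
      _ < 2 * (ε / (4 * K) * (M + L + 1)) * Real.exp ((2 * L + 1) * Z) := by
          apply mul_lt_mul_of_pos_right _ (Real.exp_pos _)
          apply mul_lt_mul_of_pos_left _ (by norm_num)
          apply mul_lt_mul_of_pos_left _ (by positivity)
          linarith
      _ = ε / (4 * K) * K := by rw [hK]; ring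
      _ = ε / 4 := by field_simp
      _ < ε / 2 := by linarith
  have h3 : dist (profV e m w' q' z) (profV e m w' q' z') < ε / 2 := h1 hz1
  calc dist (profV e m w q z) (profV e m w' q' z')
      ≤ dist (profV e m w q z) (profV e m w' q' z) + dist (profV e m w' q' z) (profV e m w' q' z') :=
        dist_triangle _ _ _
    _ < ε / 2 + ε / 2 := by
        apply add_lt_add _ h3
        rw [dist_eq_norm]; exact h2
    _ = ε := by ring

end Vale.Agent.P139.H499
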