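import Mathlib
import Vale.Agent.P139.H499.RI4

/-!
# Joint continuity and smoothness of the (truncated) profile
-/

open Set MeasureTheory Filter Topology
open scoped NNReal BoundedContinuousFunction ContDiff

namespace Vale.Agent.P139.H499

theorem continuous_prof {e m : ℕ} (hm : 1 ≤ m) :
    Continuous fun x : ℝ × ℝ × ℝ => prof e m x.1 x.2.1 x.2.2 := by
  unfold prof radU prim
  have h : Continuous fun x : ℝ × ℝ × ℝ =>
      ∫ s in (0 : ℝ)..(x.2.2 ^ 2), profV e m x.1 x.2.1 s := by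
    have hs : Continuous fun x : ℝ × ℝ × ℝ => x.2.2 ^ 2 := by fun_prop
    refine intervalIntegral.continuous_parametric_intervalIntegral_of_continuous
      (f := fun (x : ℝ × ℝ × ℝ) (s : ℝ) => profV e m x.1 x.2.1 s) ?_ hs
    have h1 := continuous_profV (e := e) hm
    have h2 : Continuous fun y : (ℝ × ℝ × ℝ) × ℝ => ((y.1.1, y.1.2.1, y.2) : ℝ × ℝ × ℝ) := by
      fun_prop
    exact h1.comp h2
  fun_prop

theorem continuous_profD {e m : ℕ} (hm : 1 ≤ m) :
    Continuous fun x : ℝ × ℝ × ℝ => profD e m x.1 x.2.1 x.2.2 := by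
  unfold profD radD
  have h1 := continuous_profV (e := e) hm
  have h2 : Continuous fun x : ℝ × ℝ × ℝ => ((x.1, x.2.1, x.2.2 ^ 2) : ℝ × ℝ × ℝ) := by fun_prop
  have h3 := h1.comp h2
  exact (continuous_snd.comp continuous_snd).smul h3

/-- Smooth cut-off version of the right-hand side. -/
noncomputable def Hsm (m : ℕ) (w : ℝ) (_z : ℝ) (Q p : ℂ) : ℂ :=
  (((Real.smoothTransition (3 - Complex.normSq Q)) * (Complex.normSq Q) ^ m : ℝ) : ℂ) * Q
    - ((w : ℂ) + Complex.I / (2 * m)) * Q - (Complex.I / 2) * p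

theorem Hsm_contDiff (m : ℕ) (w : ℝ) (n : ℕ∞) :
    ContDiff ℝ n fun q : ℝ × ℂ × ℂ => Hsm m w q.1 q.2.1 q.2.2 := by
  unfold Hsm
  have hn : ContDiff ℝ n fun Q : ℂ => Complex.normSq Q := by
    have : (fun Q : ℂ => Complex.normSq Q) = fun Q : ℂ => ‖Q‖ ^ 2 := by
      ext Q; exact Complex.normSq_eq_norm_sq Q
    rw [this]; exact contDiff_norm_sq ℝ
  have h1 : ContDiff ℝ n fun q : ℝ × ℂ × ℂ => Complex.normSq q.2.1 :=
    hn.comp (contDiff_fst.comp contDiff_snd)
  have h2 : ContDiff ℝ n fun q : ℝ × ℂ × ℂ => Real.smoothTransition (3 - Complex.normSq q.2.1) :=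
    Real.smoothTransition.contDiff.comp (contDiff_const.sub h1)
  have h3 : ContDiff ℝ n fun q : ℝ × ℂ × ℂ =>
      (((Real.smoothTransition (3 - Complex.normSq q.2.1)) * (Complex.normSq q.2.1) ^ m : ℝ) : ℂ) :=
    Complex.ofRealCLM.contDiff.comp (h2.mul (h1.pow m))
  have hq1 : ContDiff ℝ n fun q : ℝ × ℂ × ℂ => q.2.1 := contDiff_fst.comp contDiff_snd
  have hq2 : ContDiff ℝ n fun q : ℝ × ℂ × ℂ => q.2.2 := contDiff_snd.comp contDiff_snd
  exact ((h3.mul hq1).sub (contDiff_const.mul hq1)).sub (contDiff_const.mul hq2)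

theorem Hsm_eq_Hprof {m : ℕ} {w z : ℝ} {Q p : ℂ} (h : Complex.normSq Q ≤ 2) :
    Hsm m w z Q p = Hprof m w z Q p := by
  unfold Hsm Hprof
  rw [capPow_of_le h, Real.smoothTransition.one_of_one_le (by linarith), one_mul]

/-- The smooth truncation is globally Lipschitz. -/
theorem exists_Hsm_lipschitz (m : ℕ) (w : ℝ) :
    ∃ L : ℝ, 0 ≤ L ∧ ∀ (z : ℝ) (u p u' p' : ℂ),
      ‖Hsm m w z u p - Hsm m w z u' p'‖ ≤ L * (‖u - u'‖ + ‖p - p'‖) := by
  -- the compactly supported part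
  let φ : ℂ → ℂ := fun Q =>
    (((Real.smoothTransition (3 - Complex.normSq Q)) * (Complex.normSq Q) ^ m : ℝ) : ℂ) * Q
  have hφ : ContDiff ℝ 1 φ := by
    have hn : ContDiff ℝ 1 fun Q : ℂ => Complex.normSq Q := by
      have : (fun Q : ℂ => Complex.normSq Q) = fun Q : ℂ => ‖Q‖ ^ 2 := by
        ext Q; exact Complex.normSq_eq_norm_sq Q
      rw [this]; exact contDiff_norm_sq ℝ
    have h2 : ContDiff ℝ 1 fun Q : ℂ => Real.smoothTransition (3 - Complex.normSq Q) :=
      Real.smoothTransition.contDiff.comp (contDiff_const.sub hn)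
    exact (Complex.ofRealCLM.contDiff.comp (h2.mul (hn.pow m))).mul contDiff_id
  have hsupp : HasCompactSupport φ := by
    apply HasCompactSupport.intro (isCompact_closedBall (0 : ℂ) 2)
    intro Q hQ
    have hQ' : 2 < ‖Q‖ := by simpa using hQ
    have h3 : 3 - Complex.normSq Q ≤ 0 := by
      rw [Complex.normSq_eq_norm_sq]; nlinarith
    simp only [φ]
    rw [Real.smoothTransition.zero_of_nonpos h3]; simp
  obtain ⟨C, hC⟩ := hφ.lipschitzWith_of_hasCompactSupport hsupp one_ne_zero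
  refine ⟨C + (|w| + 1) + 1 / 2 + ‖Complex.I / (2 * m)‖, by positivity, ?_⟩
  intro z u p u' p'
  have h1 : Hsm m w z u p - Hsm m w z u' p' =
      (φ u - φ u') + (-(((w : ℂ) + Complex.I / (2 * m)) * (u - u')))
        + (-((Complex.I / 2) * (p - p'))) := by
    simp only [Hsm, φ]; ring
  rw [h1]
  refine (norm_add₃_le).trans ?_
  have h2 : ‖φ u - φ u'‖ ≤ C * ‖u - u'‖ := by
    have := hC.dist_le_mul u u'
    rwa [dist_eq_norm, dist_eq_norm] at this
  have h3 : ‖-(((w : ℂ) + Complex.I / (2 * m)) * (u - u'))‖ ≤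
      (|w| + ‖Complex.I / (2 * (m : ℂ))‖) * ‖u - u'‖ := by
    rw [norm_neg, norm_mul]
    apply mul_le_mul_of_nonneg_right _ (norm_nonneg _)
    refine (norm_add_le _ _).trans ?_
    rw [Complex.norm_real, Real.norm_eq_abs]
  have h4 : ‖-((Complex.I / 2) * (p - p'))‖ ≤ 1 / 2 * ‖p - p'‖ := by
    rw [norm_neg, norm_mul, norm_div, Complex.norm_I]; simp
  have n1 := norm_nonneg (u - u')
  have n2 := norm_nonneg (p - p')
  have n3 : (0 : ℝ) ≤ C := C.2
  have n4 := norm_nonneg (Complex.I / (2 * (m : ℂ)))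
  have n5 := abs_nonneg w
  nlinarith [mul_nonneg n3 n2, mul_nonneg n4 n2, mul_nonneg n5 n2]

/-- As long as `|Q|² ≤ 2`, the profile is a smooth function of `r²`. -/
theorem exists_smooth_profile {e m : ℕ} (hm : 1 ≤ m) (w q₀ : ℝ) {R : ℝ} (hR : 0 < R)
    (hQ : ∀ r ∈ Icc 0 R, Complex.normSq (prof e m w q₀ r) ≤ 2) :
    ∃ U V : ℝ → ℂ, ContDiff ℝ ∞ U ∧ ContDiff ℝ ∞ V ∧ U 0 = q₀ ∧
      (∀ z, HasDerivAt U ((1 / 2 : ℝ) • V z) z) ∧
      (∀ r ∈ Icc 0 R, prof e m w q₀ r = U (r ^ 2) ∧ profD e m w q₀ r = r • V (r ^ 2)) := by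
  obtain ⟨L, hL, hLip⟩ := exists_Hsm_lipschitz m w
  have hcont : Continuous fun q : ℝ × ℂ × ℂ => Hsm m w q.1 q.2.1 q.2.2 :=
    (Hsm_contDiff m w 0).continuous
  obtain ⟨V, hV, hreg, _⟩ := exists_isReg e hcont hL (B := 0) hLip (by simp [Hsm]) (q₀ : ℂ)
  have hsm : ∀ n : ℕ, ContDiff ℝ n V ∧ ContDiff ℝ (n + 1) (prim (q₀ : ℂ) V) := by
    intro n
    have := hreg.contDiff hV n (Hsm_contDiff m w n)
    exact ⟨this.1, this.2.1⟩
  -- the truncated profile is a regular solution for `Hsm` on `[0, R²]`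
  have hcV := profV_continuous (e := e) hm w q₀
  have h2 : IsReg e (Hsm m w) (q₀ : ℂ) (profV e m w q₀) (uIcc 0 (R ^ 2)) := by
    intro z hz
    rw [uIcc_of_le (by positivity)] at hz
    rw [profV_isReg hm w q₀ z (mem_univ z)]
    unfold avg
    apply intervalIntegral.integral_congr
    intro t ht
    rw [uIcc_of_le zero_le_one] at ht
    simp only
    congr 1
    unfold rhs
    rw [Hsm_eq_Hprof]
    -- `z t² = r²` with `r ∈ [0, R]`
    have h3 : Real.sqrt (z * t ^ 2) ∈ Icc 0 R := by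
      refine ⟨Real.sqrt_nonneg _, ?_⟩
      rw [← Real.sqrt_sq hR.le]
      apply Real.sqrt_le_sqrt
      have : t ^ 2 ≤ 1 := pow_le_one₀ ht.1 ht.2
      nlinarith [hz.1, hz.2]
    have h4 := hQ _ h3
    unfold prof radU at h4
    rwa [Real.sq_sqrt (by have := hz.1; positivity)] at h4
  have heq := IsReg.unique (Z := R ^ 2) hcont hL (fun s _ u p u' p' => hLip s u p u' p') hV hcV
    (fun z _ => hreg z (mem_univ z)) h2
  refine ⟨prim (q₀ : ℂ) V, V, ?_, ?_, by simp [prim], fun z => hasDerivAt_prim _ hV z, ?_⟩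
  · rw [contDiff_infty]
    intro n
    exact (hsm n).2.of_le (by exact_mod_cast Nat.le_succ n)
  · rw [contDiff_infty]
    exact fun n => (hsm n).1
  · intro r hr
    have hr2 : r ^ 2 ∈ uIcc 0 (R ^ 2) := by
      rw [uIcc_of_le (by positivity)]
      exact ⟨by positivity, pow_le_pow_left₀ hr.1 hr.2 2⟩
    constructor
    · unfold prof radU prim
      congr 2
      apply intervalIntegral.integral_congr
      intro s hs
      exact (heq s (mem_uIcc_zero_trans hr2 hs)).symm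
    · unfold profD radD
      rw [heq _ hr2]

end Vale.Agent.P139.H499
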