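import Mathlib
import Vale.Agent.P139.H499.RI5
import Vale.Agent.P139.H460.PSpec

/-!
# Regular solutions `RegSol` of the profile equation with potential `min (‖Q‖^n) 4`
-/

open Set MeasureTheory Filter Topology
open scoped NNReal BoundedContinuousFunction ContDiff
open Vale.Agent.P139.H460

namespace Vale.Agent.P139.H499

/-- The capped potential `min (‖Q‖^n) 4`. -/
noncomputable def cp (n : ℕ) (Q : ℂ) : ℝ := min (‖Q‖ ^ n) 4

theorem cp_nonneg (n : ℕ) (Q : ℂ) : 0 ≤ cp n Q := by unfold cp; positivity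

theorem cp_le (n : ℕ) (Q : ℂ) : cp n Q ≤ 4 := min_le_right _ _

theorem continuous_cp (n : ℕ) : Continuous (cp n) := by unfold cp; fun_prop

theorem pow_sub_pow_le_mul {n : ℕ} {x y : ℝ} (hx : 0 ≤ x) (hxy : x ≤ y) :
    (y ^ n - x ^ n) * x ≤ n * y ^ n * (y - x) := by
  have hy : 0 ≤ y := hx.trans hxy
  induction n with
  | zero => simp
  | succ n ih =>
    have h1 : y ^ (n + 1) - x ^ (n + 1) = y * (y ^ n - x ^ n) + x ^ n * (y - x) := by ring
    have h2 : y * ((y ^ n - x ^ n) * x) ≤ y * (n * y ^ n * (y - x)) :=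
      mul_le_mul_of_nonneg_left ih hy
    have h3 : x ^ n * x ≤ y ^ n * y := by
      rw [← pow_succ, ← pow_succ]; exact pow_le_pow_left₀ hx hxy _
    have h4 : x ^ n * x * (y - x) ≤ y ^ n * y * (y - x) :=
      mul_le_mul_of_nonneg_right h3 (by linarith)
    rw [h1]; push_cast
    calc (y * (y ^ n - x ^ n) + x ^ n * (y - x)) * x
        = y * ((y ^ n - x ^ n) * x) + x ^ n * x * (y - x) := by ring
      _ ≤ y * (n * y ^ n * (y - x)) + y ^ n * y * (y - x) := add_le_add h2 h4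
      _ = _ := by ring

theorem cp_lipschitz (n : ℕ) (Q Q' : ℂ) :
    ‖(cp n Q : ℂ) * Q - (cp n Q' : ℂ) * Q'‖ ≤ 4 * (n + 1) * ‖Q - Q'‖ := by
  wlog hQ : ‖Q‖ ≤ ‖Q'‖ generalizing Q Q' with H
  · have := H Q' Q (le_of_not_ge hQ)
    rw [norm_sub_rev, norm_sub_rev Q Q']
    exact this
  have h1 : (cp n Q : ℂ) * Q - (cp n Q' : ℂ) * Q' =
      ((cp n Q - cp n Q' : ℝ) : ℂ) * Q + (cp n Q' : ℂ) * (Q - Q') := by
    push_cast; ring
  have hpow : ‖Q‖ ^ n ≤ ‖Q'‖ ^ n := pow_le_pow_left₀ (norm_nonneg _) hQ n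
  have hmono : cp n Q ≤ cp n Q' := min_le_min_right _ hpow
  rw [h1]
  refine (norm_add_le _ _).trans ?_
  rw [norm_mul, norm_mul, Complex.norm_real, Complex.norm_real, Real.norm_eq_abs,
    Real.norm_eq_abs, abs_of_nonneg (cp_nonneg n Q'), abs_sub_comm,
    abs_of_nonneg (by linarith)]
  have hrev : ‖Q'‖ - ‖Q‖ ≤ ‖Q - Q'‖ := by
    rw [norm_sub_rev]; exact norm_sub_norm_le _ _
  have h2 : (cp n Q' - cp n Q) * ‖Q‖ ≤ 4 * n * ‖Q - Q'‖ := by
    rcases le_total 4 (‖Q‖ ^ n) with h | h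
    · have e1 : cp n Q = 4 := min_eq_right h
      have e2 : cp n Q' = 4 := min_eq_right (h.trans hpow)
      rw [e1, e2]; simp; positivity
    · have e1 : cp n Q = ‖Q‖ ^ n := min_eq_left h
      rcases le_total (‖Q'‖ ^ n) 4 with h' | h'
      · have e2 : cp n Q' = ‖Q'‖ ^ n := min_eq_left h'
        rw [e1, e2]
        calc _ ≤ n * ‖Q'‖ ^ n * (‖Q'‖ - ‖Q‖) := pow_sub_pow_le_mul (norm_nonneg _) hQ
          _ ≤ n * 4 * (‖Q'‖ - ‖Q‖) := by
            apply mul_le_mul_of_nonneg_right _ (by linarith)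
            exact mul_le_mul_of_nonneg_left h' (Nat.cast_nonneg n)
          _ ≤ n * 4 * ‖Q - Q'‖ := mul_le_mul_of_nonneg_left hrev (by positivity)
          _ = _ := by ring
      · have e2 : cp n Q' = 4 := min_eq_right h'
        rw [e1, e2]
        -- intermediate radius `y` with `y^n = 4`
        rcases Nat.eq_zero_or_pos n with rfl | hn
        · norm_num at h'
        obtain ⟨y, hy, hy4⟩ : ∃ y ∈ Icc ‖Q‖ ‖Q'‖, y ^ n = 4 := by
          have hc : ContinuousOn (fun y : ℝ => y ^ n) (Icc ‖Q‖ ‖Q'‖) := by fun_prop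
          exact intermediate_value_Icc hQ hc ⟨h, h'⟩
        have h3 := pow_sub_pow_le_mul (n := n) (norm_nonneg Q) hy.1
        rw [hy4] at h3
        calc _ ≤ n * 4 * (y - ‖Q‖) := h3
          _ ≤ n * 4 * ‖Q - Q'‖ := by
            apply mul_le_mul_of_nonneg_left _ (by positivity)
            linarith [hy.2]
          _ = _ := by ring
  have h3 : cp n Q' * ‖Q - Q'‖ ≤ 4 * ‖Q - Q'‖ :=
    mul_le_mul_of_nonneg_right (cp_le n Q') (norm_nonneg _)
  calc _ ≤ 4 * n * ‖Q - Q'‖ + 4 * ‖Q - Q'‖ := add_le_add h2 h3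
    _ = _ := by ring

/-- Right-hand side, arguments `Q` and `p = r Q'`. -/
noncomputable def Hc (n : ℕ) (w : ℝ) (_z : ℝ) (Q p : ℂ) : ℂ :=
  (cp n Q : ℂ) * Q - ((w : ℂ) + Complex.I * (1 / n : ℝ)) * Q - (Complex.I / 2) * p

/-- Lipschitz constant. -/
noncomputable def Lc (n : ℕ) (W : ℝ) : ℝ := 4 * (n + 1) + W + 1 / 2

theorem Hc_lipschitz {n : ℕ} {w W : ℝ} (hw : |w| + 1 ≤ W) (z : ℝ)
    (u p u' p' : ℂ) :
    ‖Hc n w z u p - Hc n w z u' p'‖ ≤ Lc n W * (‖u - u'‖ + ‖p - p'‖) := by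
  have h1 : Hc n w z u p - Hc n w z u' p' =
      ((cp n u : ℂ) * u - (cp n u' : ℂ) * u')
      + (-(((w : ℂ) + Complex.I * (1 / n : ℝ)) * (u - u'))) + (-((Complex.I / 2) * (p - p'))) := by
    unfold Hc; ring
  rw [h1]
  refine (norm_add₃_le).trans ?_
  have h2 := cp_lipschitz n u u'
  have hn1 : |(1 / n : ℝ)| ≤ 1 := by
    rcases Nat.eq_zero_or_pos n with rfl | hn
    · simp
    · have : (1 : ℝ) ≤ n := by exact_mod_cast hn
      rw [abs_of_nonneg (by positivity), div_le_one (by linarith)]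
      exact this
  have h3 : ‖-(((w : ℂ) + Complex.I * (1 / n : ℝ)) * (u - u'))‖ ≤ W * ‖u - u'‖ := by
    rw [norm_neg, norm_mul]
    apply mul_le_mul_of_nonneg_right _ (norm_nonneg _)
    calc ‖(w : ℂ) + Complex.I * (1 / n : ℝ)‖ ≤ ‖(w : ℂ)‖ + ‖Complex.I * ((1 / n : ℝ) : ℂ)‖ :=
          norm_add_le _ _
      _ ≤ |w| + 1 := by
        apply add_le_add
        · rw [Complex.norm_real, Real.norm_eq_abs]
        · rw [norm_mul, Complex.norm_I, one_mul, Complex.norm_real, Real.norm_eq_abs]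
          exact hn1
      _ ≤ W := hw
  have h4 : ‖-((Complex.I / 2) * (p - p'))‖ ≤ 1 / 2 * ‖p - p'‖ := by
    rw [norm_neg, norm_mul, norm_div, Complex.norm_I]; simp
  have hW0 : 0 ≤ W := by
    have := abs_nonneg w; linarith
  unfold Lc
  have n1 := norm_nonneg (u - u')
  have n2 := norm_nonneg (p - p')
  have n3 : (0 : ℝ) ≤ 4 * (n + 1) := by positivity
  nlinarith [mul_nonneg n3 n2, mul_nonneg hW0 n2]

theorem Hc_continuous (n : ℕ) (w : ℝ) :
    Continuous fun q : ℝ × ℂ × ℂ => Hc n w q.1 q.2.1 q.2.2 := by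
  unfold Hc
  have := continuous_cp n
  fun_prop

theorem exists_cV (e n : ℕ) (w q₀ : ℝ) :
    ∃ V : ℝ → ℂ, Continuous V ∧ IsReg e (Hc n w) (q₀ : ℂ) V univ := by
  obtain ⟨V, h1, h2, _⟩ := exists_isReg e (Hc_continuous n w) (L := Lc n (|w| + 1))
    (B := 0) (by unfold Lc; positivity)
    (fun s u p u' p' => Hc_lipschitz le_rfl s u p u' p') (by simp [Hc]) (q₀ : ℂ)
  exact ⟨V, h1, h2⟩

/-- The function `V` (with `Q' (r) = r V(r²)`) of the capped profile with value `q₀` at `0`. -/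
noncomputable def cV (d n : ℕ) (w q₀ : ℝ) : ℝ → ℂ := (exists_cV (d - 1) n w q₀).choose

/-- The capped profile `Q(r)`. -/
noncomputable def cQ (d n : ℕ) (w q₀ : ℝ) (r : ℝ) : ℂ := radU (q₀ : ℂ) (cV d n w q₀) r

/-- Its derivative. -/
noncomputable def cQ1 (d n : ℕ) (w q₀ : ℝ) (r : ℝ) : ℂ := radD (cV d n w q₀) r

theorem cV_continuous (d n : ℕ) (w q₀ : ℝ) : Continuous (cV d n w q₀) :=
  (exists_cV (d - 1) n w q₀).choose_spec.1

theorem cV_isReg (d n : ℕ) (w q₀ : ℝ) :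
    IsReg (d - 1) (Hc n w) (q₀ : ℂ) (cV d n w q₀) univ :=
  (exists_cV (d - 1) n w q₀).choose_spec.2

theorem cQ_zero (d n : ℕ) (w q₀ : ℝ) : cQ d n w q₀ 0 = q₀ := by
  unfold cQ radU prim; simp

theorem cQ1_zero (d n : ℕ) (w q₀ : ℝ) : cQ1 d n w q₀ 0 = 0 := by
  unfold cQ1 radD; simp

theorem hasDerivAt_cQ (d n : ℕ) (w q₀ r : ℝ) :
    HasDerivAt (cQ d n w q₀) (cQ1 d n w q₀ r) r :=
  hasDerivAt_radU _ (cV_continuous d n w q₀) r

theorem hasDerivAt_cQ1_flux (d n : ℕ) (w q₀ r : ℝ) :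
    HasDerivAt (fun r : ℝ => r ^ (d - 1) • cQ1 d n w q₀ r)
      (r ^ (d - 1) • Hc n w (r ^ 2) (cQ d n w q₀ r) (r • cQ1 d n w q₀ r)) r :=
  hasDerivAt_flux (Hc_continuous n w) (cV_continuous d n w q₀) (cV_isReg d n w q₀) r

theorem hasDerivAt_cQ1 {d : ℕ} (hd : 1 ≤ d) (n : ℕ) (w q₀ : ℝ) {r : ℝ} (hr : r ≠ 0) :
    HasDerivAt (cQ1 d n w q₀)
      (-((((d : ℝ) - 1) / r : ℝ) + Complex.I * (r / 2 : ℝ)) * cQ1 d n w q₀ r
        - ((w : ℂ) + Complex.I * (1 / n : ℝ)) * cQ d n w q₀ r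
        + (min (‖cQ d n w q₀ r‖ ^ n) 4 : ℝ) * cQ d n w q₀ r) r := by
  have h := hasDerivAt_radD (Hc_continuous n w) (cV_continuous d n w q₀) (cV_isReg d n w q₀) hr
  refine h.congr_deriv ?_
  have hd1 : ((d - 1 : ℕ) : ℝ) = (d : ℝ) - 1 := by push_cast [Nat.cast_sub hd]; ring
  rw [hd1]
  change Hc n w (r ^ 2) (cQ d n w q₀ r) (r • cQ1 d n w q₀ r)
    - (((d : ℝ) - 1) / r) • cQ1 d n w q₀ r = _
  unfold Hc cp
  rw [Complex.real_smul, Complex.real_smul]
  push_cast
  ring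

/-- **Existence** of the regular solution. -/
theorem regSol_cQ {d : ℕ} (hd : 1 ≤ d) (n : ℕ) (w q₀ b : ℝ) :
    RegSol d n w q₀ b (cQ d n w q₀) (cQ1 d n w q₀) where
  cQ := fun r _ => (hasDerivAt_cQ d n w q₀ r).continuousAt.continuousWithinAt
  cQ1 := (continuous_radD (cV_continuous d n w q₀)).continuousOn
  ode := ⟨fun r _ => hasDerivAt_cQ d n w q₀ r, fun r hr => by
    have := hasDerivAt_cQ1 hd n w q₀ (r := r) hr.1.ne'
    push_cast at this ⊢
    exact this⟩
  Q0 := cQ_zero d n w q₀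
  Q10 := cQ1_zero d n w q₀

/-- **Uniqueness** of the regular solution. -/
theorem RegSol.eq_cQ {d n : ℕ} (hd : 1 ≤ d) {w q₀ b : ℝ} (hb : 0 < b) {Q Q1 : ℝ → ℂ}
    (h : RegSol d n w q₀ b Q Q1) :
    ∀ r ∈ Icc 0 b, Q r = cQ d n w q₀ r ∧ Q1 r = cQ1 d n w q₀ r := by
  set e := d - 1 with he
  have hd1 : (e : ℝ) = (d : ℝ) - 1 := by rw [he]; push_cast [Nat.cast_sub hd]; ring
  -- the right-hand side as a continuous function on `ℝ`
  let F : ℝ → ℂ := fun r => Hc n w (r ^ 2) (Q r) (r • Q1 r)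
  have hF : ContinuousOn F (Icc 0 b) := by
    have c1 := h.cQ
    have c2 := h.cQ1
    have c3 : ContinuousOn (fun r : ℝ => cp n (Q r)) (Icc 0 b) :=
      (continuous_cp n).comp_continuousOn c1
    simp only [F, Hc]
    fun_prop
  let π : ℝ → ℝ := fun s => max 0 (min s b)
  have hπ : Continuous π := by fun_prop
  have hπm : ∀ s, π s ∈ Icc 0 b := fun s => ⟨le_max_left _ _, max_le hb.le (min_le_right _ _)⟩
  have hπe : ∀ s ∈ Icc 0 b, π s = s := by
    intro s hs; simp only [π]; rw [min_eq_left hs.2, max_eq_right hs.1]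
  let G : ℝ → ℂ := fun s => F (π (Real.sqrt s))
  have hG : Continuous G := by
    apply hF.comp_continuous (hπ.comp Real.continuous_sqrt)
    intro s; exact hπm _
  let V : ℝ → ℂ := avg e G
  have hV : Continuous V := avg_continuous e hG
  have hflux : ∀ r ∈ Icc 0 b, r ^ e • Q1 r = ∫ s in (0 : ℝ)..r, s ^ e • G (s ^ 2) := by
    intro r hr
    have c1 : ContinuousOn (fun s : ℝ => s ^ e • Q1 s) (Icc 0 r) := by
      have := h.cQ1.mono (Icc_subset_Icc_right hr.2)
      fun_prop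
    have hc : Continuous fun s : ℝ => s ^ e • G (s ^ 2) := by fun_prop
    have h1 := intervalIntegral.integral_eq_sub_of_hasDerivAt_of_le hr.1
      (f := fun s : ℝ => s ^ e • Q1 s) (f' := fun s : ℝ => s ^ e • G (s ^ 2)) c1
      (fun x hx => by
        have hx0 : x ≠ 0 := hx.1.ne'
        have h2 := h.ode.h2 x ⟨hx.1, hx.2.trans_le hr.2⟩
        have h3 := (hasDerivAt_pow e x).smul h2
        refine h3.congr_deriv ?_
        have h4 : G (x ^ 2) = F x := by
          simp only [G]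
          rw [Real.sqrt_sq hx.1.le, hπe x ⟨hx.1.le, hx.2.le.trans hr.2⟩]
        rw [h4]
        simp only [F]
        unfold Hc cp
        simp only [Complex.real_smul]
        rcases Nat.eq_zero_or_pos e with h0 | h0
        · rw [h0] at hd1 ⊢
          have : (d : ℝ) - 1 = 0 := by rw [← hd1]; simp
          rw [this]
          push_cast
          simp
          ring
        · rw [← hd1]
          have h5 : (x : ℂ) ^ e = (x : ℂ) ^ (e - 1) * x := by
            rw [← pow_succ]; congr 1; omega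
          push_cast
          rw [h5]
          have : (x : ℂ) ≠ 0 := by exact_mod_cast hx0
          field_simp
          ring) (hc.intervalIntegrable _ _)
    rw [h1, h.Q10]; simp
  have hQ1 : ∀ r ∈ Icc 0 b, Q1 r = radD V r := by
    intro r hr
    rcases eq_or_lt_of_le hr.1 with h0 | h0
    · rw [← h0, h.Q10]; unfold radD; simp
    · have h1 := hflux r hr
      rw [← avg_sq, pow_succ, ← smul_smul] at h1
      have h2 := congrArg (fun v => ((r ^ e)⁻¹ : ℝ) • v) h1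
      simp only [smul_smul] at h2
      rw [← mul_assoc, inv_mul_cancel₀ (by positivity), one_smul, one_mul] at h2
      exact h2
  have hQ : ∀ r ∈ Icc 0 b, Q r = radU (q₀ : ℂ) V r := by
    intro r hr
    have h1 := intervalIntegral.integral_eq_sub_of_hasDerivAt_of_le hr.1
      (f := Q) (f' := radD V) (h.cQ.mono (Icc_subset_Icc_right hr.2))
      (fun x hx => by
        have := h.ode.h1 x ⟨hx.1, hx.2.trans_le hr.2⟩
        rwa [hQ1 x ⟨hx.1.le, hx.2.le.trans hr.2⟩] at this)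
      ((continuous_radD hV).intervalIntegrable _ _)
    have h2 := intervalIntegral.integral_eq_sub_of_hasDerivAt_of_le hr.1
      (f := radU (q₀ : ℂ) V) (f' := radD V)
      (fun x _ => (hasDerivAt_radU _ hV x).continuousAt.continuousWithinAt)
      (fun x _ => hasDerivAt_radU _ hV x) ((continuous_radD hV).intervalIntegrable _ _)
    rw [h1] at h2
    have h3 : radU (q₀ : ℂ) V 0 = q₀ := by unfold radU prim; simp
    rw [h3, h.Q0] at h2
    exact sub_left_inj.mp h2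
  have hreg : IsReg e (Hc n w) (q₀ : ℂ) V (uIcc 0 (b ^ 2)) := by
    intro z hz
    rw [uIcc_of_le (by positivity)] at hz
    show avg e G z = avg e (rhs (Hc n w) (q₀ : ℂ) V) z
    unfold avg
    apply intervalIntegral.integral_congr
    intro t ht
    rw [uIcc_of_le zero_le_one] at ht
    simp only
    congr 1
    have hs0 : 0 ≤ z * t ^ 2 := by have := hz.1; positivity
    have hsb : Real.sqrt (z * t ^ 2) ∈ Icc 0 b := by
      refine ⟨Real.sqrt_nonneg _, ?_⟩
      rw [← Real.sqrt_sq hb.le]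
      apply Real.sqrt_le_sqrt
      have : t ^ 2 ≤ 1 := pow_le_one₀ ht.1 ht.2
      nlinarith [hz.1, hz.2]
    set s := z * t ^ 2 with hs
    set ρ := Real.sqrt s with hρ
    have hρ2 : ρ ^ 2 = s := Real.sq_sqrt hs0
    simp only [G, F]
    rw [hπe ρ hsb, hQ ρ hsb, hQ1 ρ hsb]
    unfold rhs radU radD
    rw [hρ2, smul_smul, ← pow_two, hρ2]
  have huniq := IsReg.unique (Z := b ^ 2) (Hc_continuous n w) (L := Lc n (|w| + 1))
    (by unfold Lc; positivity) (fun s _ u p u' p' => Hc_lipschitz le_rfl s u p u' p')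
    hV (cV_continuous d n w q₀) hreg (fun z _ => cV_isReg d n w q₀ z (mem_univ z))
  intro r hr
  have hr2 : r ^ 2 ∈ uIcc 0 (b ^ 2) := by
    rw [uIcc_of_le (by positivity)]
    exact ⟨by positivity, pow_le_pow_left₀ hr.1 hr.2 2⟩
  constructor
  · rw [hQ r hr]
    unfold cQ radU prim
    congr 2
    apply intervalIntegral.integral_congr
    intro s hs
    exact huniq s (mem_uIcc_zero_trans hr2 hs)
  · rw [hQ1 r hr]
    unfold cQ1 radD
    rw [huniq _ hr2]

end Vale.Agent.P139.H499
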