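import Mathlib
import Vale.Agent.P139.H499.RI6

/-!
# Joint continuity and smoothness of the capped profile
-/

open Set MeasureTheory Filter Topology
open scoped NNReal BoundedContinuousFunction ContDiff
open Vale.Agent.P139.H460

namespace Vale.Agent.P139.H499

/-- Joint continuity of `V` in `(w, q₀, z)`. -/
theorem continuous_cV (d n : ℕ) :
    Continuous fun x : ℝ × ℝ × ℝ => cV d n x.1 x.2.1 x.2.2 := by
  rw [continuous_iff_continuousAt]
  rintro ⟨w', q', z'⟩
  rw [Metric.continuousAt_iff]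
  intro ε hε
  set Z := |z'| + 1 with hZ
  have cV' := cV_continuous d n w' q'
  obtain ⟨M, hM⟩ : ∃ M : ℝ, ∀ s ∈ Icc (-Z) Z, ‖prim (q' : ℂ) (cV d n w' q') s‖ ≤ M :=
    (isCompact_Icc (a := -Z) (b := Z)).exists_bound_of_continuousOn
      (prim_continuous _ cV').continuousOn
  have hM0 : 0 ≤ M := (norm_nonneg _).trans (hM 0 ⟨by
    have := abs_nonneg z'; linarith, by have := abs_nonneg z'; linarith⟩)
  set W := |w'| + 1 + 1 with hW
  set L := Lc n W with hL
  have hL0 : 0 ≤ L := by rw [hL]; unfold Lc; positivity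
  set K := 2 * Real.exp ((2 * L + 1) * Z) * (M + L + 1) with hK
  have hK0 : 0 < K := by positivity
  have hc : ContinuousAt (cV d n w' q') z' := cV'.continuousAt
  rw [Metric.continuousAt_iff] at hc
  obtain ⟨δ₁, hδ₁, h1⟩ := hc (ε / 2) (by positivity)
  refine ⟨min (min δ₁ 1) (ε / (4 * K)), by positivity, ?_⟩
  rintro ⟨w, q, z⟩ hdist
  rw [Prod.dist_eq, Prod.dist_eq] at hdist
  have hA : dist w w' < min (min δ₁ 1) (ε / (4 * K)) := (le_max_left _ _).trans_lt hdist
  have hB : dist q q' < min (min δ₁ 1) (ε / (4 * K)) :=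
    ((le_max_left _ _).trans (le_max_right _ _)).trans_lt hdist
  have hC : dist z z' < min (min δ₁ 1) (ε / (4 * K)) :=
    ((le_max_right _ _).trans (le_max_right _ _)).trans_lt hdist
  rw [lt_min_iff, lt_min_iff] at hA hB hC
  obtain ⟨⟨hw1, hw2⟩, hw3⟩ := hA
  obtain ⟨⟨hq1, hq2⟩, hq3⟩ := hB
  obtain ⟨⟨hz1, hz2⟩, hz3⟩ := hC
  simp only
  have hzZ : |z| ≤ Z := by
    rw [Real.dist_eq] at hz2
    calc |z| = |(z - z') + z'| := by ring_nf
      _ ≤ |z - z'| + |z'| := abs_add_le _ _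
      _ ≤ Z := by linarith
  have hwW : |w| + 1 ≤ W := by
    rw [Real.dist_eq] at hw2
    have : |w| ≤ |w'| + 1 := by
      calc |w| = |(w - w') + w'| := by ring_nf
        _ ≤ |w - w'| + |w'| := abs_add_le _ _
        _ ≤ _ := by linarith
    linarith
  have hcomp := IsReg.dist_le (e := d - 1) (Z := z) (Hc_continuous n w) (Hc_continuous n w') hL0
    (fun s _ u p u' p' => Hc_lipschitz hwW s u p u' p')
    (cV_continuous d n w q) cV'
    (fun s _ => cV_isReg d n w q s (mem_univ s)) (fun s _ => cV_isReg d n w' q' s (mem_univ s))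
    (δ := |w - w'| * M + L * |q - q'|) (by positivity) (by
      intro s hs
      have hsZ : s ∈ Icc (-Z) Z := by
        have := (abs_le_of_mem_uIcc_zero hs).trans hzZ
        exact abs_le.mp this
      have hp : prim (q : ℂ) (cV d n w' q') s =
          prim (q' : ℂ) (cV d n w' q') s + ((q - q' : ℝ) : ℂ) := by
        unfold prim; push_cast; ring
      set u := prim (q' : ℂ) (cV d n w' q') s with hu
      set p := s • cV d n w' q' s with hpp
      rw [hp]
      have e1 : Hc n w s (u + ((q - q' : ℝ) : ℂ)) p - Hc n w' s u p =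
          (Hc n w s (u + ((q - q' : ℝ) : ℂ)) p - Hc n w s u p)
            + (-(((w - w' : ℝ) : ℂ) * u)) := by
        unfold Hc; push_cast; ring
      rw [e1]
      refine (norm_add_le _ _).trans ?_
      rw [add_comm]
      apply add_le_add
      · rw [norm_neg, norm_mul, Complex.norm_real, Real.norm_eq_abs]
        exact mul_le_mul_of_nonneg_left (hM s hsZ) (abs_nonneg _)
      · have := Hc_lipschitz hwW s (n := n) (u + ((q - q' : ℝ) : ℂ)) p u p
        rw [add_sub_cancel_left, sub_self, norm_zero, add_zero, Complex.norm_real,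
          Real.norm_eq_abs] at this
        exact this) z right_mem_uIcc
  have h2 : ‖cV d n w q z - cV d n w' q' z‖ < ε / 2 := by
    refine lt_of_le_of_lt hcomp ?_
    rw [Real.dist_eq] at hw3 hq3
    have hexp : Real.exp ((2 * L + 1) * |z|) ≤ Real.exp ((2 * L + 1) * Z) := by
      apply Real.exp_le_exp.mpr
      exact mul_le_mul_of_nonneg_left hzZ (by positivity)
    have hsmall : |w - w'| * M + L * |q - q'| ≤ ε / (4 * K) * (M + L) := by
      nlinarith [abs_nonneg (w - w'), abs_nonneg (q - q')]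
    calc 2 * (|w - w'| * M + L * |q - q'|) * Real.exp ((2 * L + 1) * |z|)
        ≤ 2 * (ε / (4 * K) * (M + L)) * Real.exp ((2 * L + 1) * Z) := by
          apply mul_le_mul (mul_le_mul_of_nonneg_left hsmall (by norm_num)) hexp
            (Real.exp_pos _).le (by positivity)
      _ < 2 * (ε / (4 * K) * (M + L + 1)) * Real.exp ((2 * L + 1) * Z) := by
          apply mul_lt_mul_of_pos_right _ (Real.exp_pos _)
          apply mul_lt_mul_of_pos_left _ (by norm_num)
          apply mul_lt_mul_of_pos_left _ (by positivity)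
          linarith
      _ = ε / (4 * K) * K := by rw [hK]; ring
      _ = ε / 4 := by field_simp
      _ < ε / 2 := by linarith
  have h3 : dist (cV d n w' q' z) (cV d n w' q' z') < ε / 2 := h1 hz1
  calc dist (cV d n w q z) (cV d n w' q' z')
      ≤ dist (cV d n w q z) (cV d n w' q' z) + dist (cV d n w' q' z) (cV d n w' q' z') :=
        dist_triangle _ _ _
    _ < ε / 2 + ε / 2 := by
        apply add_lt_add _ h3
        rw [dist_eq_norm]; exact h2
    _ = ε := by ring

/-- Joint continuity of `Q` in `(w, q₀, r)`. -/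
theorem continuous_cQ (d n : ℕ) :
    Continuous fun x : ℝ × ℝ × ℝ => cQ d n x.1 x.2.1 x.2.2 := by
  unfold cQ radU prim
  have h : Continuous fun x : ℝ × ℝ × ℝ =>
      ∫ s in (0 : ℝ)..(x.2.2 ^ 2), cV d n x.1 x.2.1 s := by
    have hs : Continuous fun x : ℝ × ℝ × ℝ => x.2.2 ^ 2 := by fun_prop
    refine intervalIntegral.continuous_parametric_intervalIntegral_of_continuous
      (f := fun (x : ℝ × ℝ × ℝ) (s : ℝ) => cV d n x.1 x.2.1 s) ?_ hs
    have h1 := continuous_cV d n
    have h2 : Continuous fun y : (ℝ × ℝ × ℝ) × ℝ => ((y.1.1, y.1.2.1, y.2) : ℝ × ℝ × ℝ) := by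
      fun_prop
    exact h1.comp h2
  fun_prop

/-- Joint continuity of `Q'` in `(w, q₀, r)`. -/
theorem continuous_cQ1 (d n : ℕ) :
    Continuous fun x : ℝ × ℝ × ℝ => cQ1 d n x.1 x.2.1 x.2.2 := by
  unfold cQ1 radD
  have h1 := continuous_cV d n
  have h2 : Continuous fun x : ℝ × ℝ × ℝ => ((x.1, x.2.1, x.2.2 ^ 2) : ℝ × ℝ × ℝ) := by fun_prop
  have h3 := h1.comp h2
  exact (continuous_snd.comp continuous_snd).smul h3

theorem Hsm_eq_Hc {m : ℕ} (hm : 2 ≤ m) {w z : ℝ} {Q p : ℂ} (h : ‖Q‖ ^ (2 * m) ≤ 4) :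
    Hsm m w z Q p = Hc (2 * m) w z Q p := by
  have hs : Complex.normSq Q ≤ 2 := by
    rw [Complex.normSq_eq_norm_sq]
    by_contra hcon
    push Not at hcon
    have h1 : (2 : ℝ) ^ m < (‖Q‖ ^ 2) ^ m := pow_lt_pow_left₀ hcon (by norm_num) (by omega)
    rw [← pow_mul] at h1
    have h2 : (2 : ℝ) ^ 2 ≤ 2 ^ m := pow_le_pow_right₀ (by norm_num) hm
    norm_num at h2
    linarith
  unfold Hsm Hc cp
  rw [Real.smoothTransition.one_of_one_le (by linarith), one_mul, min_eq_left h,
    Complex.normSq_eq_norm_sq, ← pow_mul]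
  push_cast
  ring

/-- As long as `|Q|^{2m} ≤ 4`, the regular solution is a smooth function of `r²`. -/
theorem exists_smooth_cQ {d m : ℕ} (hm : 2 ≤ m) (w q₀ : ℝ) {R : ℝ} (hR : 0 < R)
    (hQ : ∀ r ∈ Icc 0 R, ‖cQ d (2 * m) w q₀ r‖ ^ (2 * m) ≤ 4) :
    ∃ U V : ℝ → ℂ, ContDiff ℝ ∞ U ∧ ContDiff ℝ ∞ V ∧ U 0 = q₀ ∧
      (∀ z, HasDerivAt U ((1 / 2 : ℝ) • V z) z) ∧
      (∀ r ∈ Icc 0 R, cQ d (2 * m) w q₀ r = U (r ^ 2) ∧
        cQ1 d (2 * m) w q₀ r = r • V (r ^ 2)) := by
  obtain ⟨L, hL, hLip⟩ := exists_Hsm_lipschitz m w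
  have hcont : Continuous fun q : ℝ × ℂ × ℂ => Hsm m w q.1 q.2.1 q.2.2 :=
    (Hsm_contDiff m w 0).continuous
  obtain ⟨V, hV, hreg, _⟩ := exists_isReg (d - 1) hcont hL (B := 0) hLip (by simp [Hsm]) (q₀ : ℂ)
  have hsm : ∀ n : ℕ, ContDiff ℝ n V ∧ ContDiff ℝ (n + 1) (prim (q₀ : ℂ) V) := by
    intro n
    have := hreg.contDiff hV n (Hsm_contDiff m w n)
    exact ⟨this.1, this.2.1⟩
  have hcV := cV_continuous d (2 * m) w q₀
  have h2 : IsReg (d - 1) (Hsm m w) (q₀ : ℂ) (cV d (2 * m) w q₀) (uIcc 0 (R ^ 2)) := by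
    intro z hz
    rw [uIcc_of_le (by positivity)] at hz
    rw [cV_isReg d (2 * m) w q₀ z (mem_univ z)]
    unfold avg
    apply intervalIntegral.integral_congr
    intro t ht
    rw [uIcc_of_le zero_le_one] at ht
    simp only
    congr 1
    unfold rhs
    rw [Hsm_eq_Hc hm]
    have h3 : Real.sqrt (z * t ^ 2) ∈ Icc 0 R := by
      refine ⟨Real.sqrt_nonneg _, ?_⟩
      rw [← Real.sqrt_sq hR.le]
      apply Real.sqrt_le_sqrt
      have : t ^ 2 ≤ 1 := pow_le_one₀ ht.1 ht.2
      nlinarith [hz.1, hz.2]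
    have h4 := hQ _ h3
    unfold cQ radU at h4
    rwa [Real.sq_sqrt (by have := hz.1; positivity)] at h4
  have heq := IsReg.unique (Z := R ^ 2) hcont hL (fun s _ u p u' p' => hLip s u p u' p') hV hcV
    (fun z _ => hreg z (mem_univ z)) h2
  refine ⟨prim (q₀ : ℂ) V, V, ?_, ?_, by simp [prim], fun z => hasDerivAt_prim _ hV z, ?_⟩
  · rw [contDiff_infty]
    intro n
    exact (hsm n).2.of_le (by exact_mod_cast Nat.le_succ n)
  · rw [contDiff_infty]
    exact fun n => (hsm n).1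
  · intro r hr
    have hr2 : r ^ 2 ∈ uIcc 0 (R ^ 2) := by
      rw [uIcc_of_le (by positivity)]
      exact ⟨by positivity, pow_le_pow_left₀ hr.1 hr.2 2⟩
    constructor
    · unfold cQ radU prim
      congr 2
      apply intervalIntegral.integral_congr
      intro s hs
      exact (heq s (mem_uIcc_zero_trans hr2 hs)).symm
    · unfold cQ1 radD
      rw [heq _ hr2]

end Vale.Agent.P139.H499
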